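import Mathlib

/-!
# SW / Cont: continuation of Dirichlet series to `re s > 0` with growth `(q(|t|+2))^ε` near `re s = 1`

Part of the Siegel-Walfisz library (`Crest.Agent.Lib.SW.Main`).
-/

set_option autoImplicit false

namespace Crest.Agent.SW

open Finset Complex DirichletCharacter

section
open Filter Topology MeasureTheory

/-- `∫_m^{m+1} y^{-s} dy` -/
noncomputable def contG (m : ℝ) (s : ℂ) : ℂ := ∫ y in m..(m + 1), (y : ℂ) ^ (-s)

theorem cont_not_mem {m : ℝ} (hm : 1 ≤ m) : (0 : ℝ) ∉ Set.uIcc m (m + 1) := by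
  rw [Set.uIcc_of_le (by linarith)]
  intro h
  linarith [h.1]

theorem contG_eq {m : ℝ} (hm : 1 ≤ m) {s : ℂ} (hs : s ≠ 1) :
    contG m s = ((m : ℂ) ^ (1 - s) - ((m + 1 : ℝ) : ℂ) ^ (1 - s)) / (s - 1) := by
  have h1 : s - 1 ≠ 0 := sub_ne_zero.2 hs
  have h2 : 1 - s ≠ 0 := sub_ne_zero.2 hs.symm
  rw [contG, integral_cpow (Or.inr ⟨fun h => hs (neg_injective h), cont_not_mem hm⟩),
    show -s + 1 = 1 - s by ring]
  field_simp
  ring

theorem cont_norm_le {m y : ℝ} (hm : 1 ≤ m) (hy : m ≤ y) {s : ℂ} (hs : 0 ≤ s.re) :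
    ‖(y : ℂ) ^ (-s)‖ ≤ m ^ (-s.re) := by
  rw [norm_cpow_eq_rpow_re_of_pos (by linarith), neg_re]
  exact Real.rpow_le_rpow_of_nonpos (by linarith) hy (by linarith)

theorem contG_norm_le {m : ℝ} (hm : 1 ≤ m) {s : ℂ} (hs : 0 ≤ s.re) :
    ‖contG m s‖ ≤ m ^ (-s.re) := by
  have := intervalIntegral.norm_integral_le_of_norm_le_const (a := m) (b := m + 1)
    (f := fun y : ℝ => (y : ℂ) ^ (-s)) (C := m ^ (-s.re)) (fun y hy => by
      rw [Set.uIoc_of_le (by linarith)] at hy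
      exact cont_norm_le hm hy.1.le hs)
  simpa [contG] using this

theorem cont_sub_le {m y : ℝ} (hm : 1 ≤ m) (hy : y ∈ Set.Icc m (m + 1)) {s : ℂ} (hs : 0 < s.re) :
    ‖(m : ℂ) ^ (-s) - (y : ℂ) ^ (-s)‖ ≤ ‖s‖ * m ^ (-s.re - 1) := by
  have hs0 : -s ≠ 0 := by
    intro h
    rw [neg_eq_zero] at h
    simp [h] at hs
  have := (convex_Icc m (m + 1)).norm_image_sub_le_of_norm_hasDerivWithin_le
    (f := fun y : ℝ => (y : ℂ) ^ (-s)) (f' := fun x : ℝ => -s * (x : ℂ) ^ (-s - 1))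
    (C := ‖s‖ * m ^ (-s.re - 1))
    (fun x hx => (hasDerivAt_ofReal_cpow_const (by linarith [hx.1]) hs0).hasDerivWithinAt)
    (fun x hx => by
      rw [norm_mul, norm_neg, show -s - 1 = -(s + 1) by ring,
        show -s.re - 1 = -(s + 1).re by simp; ring]
      exact mul_le_mul_of_nonneg_left (cont_norm_le hm hx.1 (by simp; linarith)) (norm_nonneg _))
    hy ⟨le_rfl, by linarith⟩
  refine this.trans (mul_le_of_le_one_right (by positivity) ?_)
  rw [Real.norm_eq_abs, abs_le]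
  constructor <;> linarith [hy.1, hy.2]

theorem contG_sub_le {m : ℝ} (hm : 1 ≤ m) {s : ℂ} (hs : 0 < s.re) :
    ‖(m : ℂ) ^ (-s) - contG m s‖ ≤ ‖s‖ * m ^ (-s.re - 1) := by
  have := intervalIntegral.norm_integral_le_of_norm_le_const (a := m) (b := m + 1)
    (f := fun y : ℝ => (m : ℂ) ^ (-s) - (y : ℂ) ^ (-s)) (C := ‖s‖ * m ^ (-s.re - 1))
    (fun y hy => by
      rw [Set.uIoc_of_le (by linarith)] at hy
      exact cont_sub_le hm ⟨hy.1.le, hy.2⟩ hs)
  rw [intervalIntegral.integral_sub intervalIntegrable_const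
    (intervalIntegral.intervalIntegrable_cpow (Or.inr (cont_not_mem hm)))] at this
  simpa [contG] using this

theorem cont_diff_cpow {m : ℝ} (hm : 0 < m) {g : ℂ → ℂ} (hg : Differentiable ℂ g) :
    Differentiable ℂ fun s => (m : ℂ) ^ g s :=
  hg.const_cpow (Or.inl (ofReal_ne_zero.2 hm.ne'))

theorem contG_diff {m : ℝ} (hm : 1 ≤ m) : Differentiable ℂ (contG m) := by
  rw [← differentiableOn_univ, ← differentiableOn_compl_singleton_and_continuousAt_iff
    (univ_mem : _ ∈ 𝓝 (1 : ℂ))]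
  constructor
  · refine DifferentiableOn.congr (f := fun s =>
      ((m : ℂ) ^ (1 - s) - ((m + 1 : ℝ) : ℂ) ^ (1 - s)) / (s - 1)) ?_ fun s hs => contG_eq hm hs.2
    refine DifferentiableOn.div (Differentiable.differentiableOn ?_) (by fun_prop)
      fun s hs => sub_ne_zero.2 hs.2
    exact (cont_diff_cpow (by linarith) (by fun_prop)).sub
      (cont_diff_cpow (by linarith) (by fun_prop))
  · refine intervalIntegral.continuousAt_of_dominated_interval (bound := fun _ => 1) ?_ ?_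
      intervalIntegrable_const ?_
    · exact Eventually.of_forall fun s =>
        (intervalIntegral.intervalIntegrable_cpow (Or.inr (cont_not_mem hm))).def'.aestronglyMeasurable
    · have : ∀ᶠ s : ℂ in 𝓝 1, 0 < s.re :=
        (isOpen_lt continuous_const continuous_re).mem_nhds (by simp)
      filter_upwards [this] with s hs
      refine Eventually.of_forall fun y hy => ?_
      rw [Set.uIoc_of_le (by linarith)] at hy
      exact (cont_norm_le le_rfl (hm.trans hy.1.le) hs.le).trans (by simp)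
    · refine Eventually.of_forall fun y hy => ?_
      rw [Set.uIoc_of_le (by linarith)] at hy
      exact (cont_diff_cpow (by linarith [hy.1]) (by fun_prop)).continuous.continuousAt

/-- partial sums of `a n - δ` -/
noncomputable def contB (a : ℕ → ℂ) (δ : ℝ) (N : ℕ) : ℂ := ∑ n ∈ Icc 1 N, a n - (δ : ℂ) * N

/-- the terms of the continuation -/
noncomputable def contT (a : ℕ → ℂ) (δ : ℝ) (n : ℕ) (s : ℂ) : ℂ :=
  contB a δ (n + 1) * ((((n : ℝ) + 1 : ℝ) : ℂ) ^ (-s) - (((n : ℝ) + 1 + 1 : ℝ) : ℂ) ^ (-s)) +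
    δ * ((((n : ℝ) + 1 : ℝ) : ℂ) ^ (-s) - contG (n + 1) s)

theorem cont_one_le (n : ℕ) : (1 : ℝ) ≤ n + 1 := by
  linarith [(Nat.cast_nonneg n : (0 : ℝ) ≤ n)]

theorem contT_sum (a : ℕ → ℂ) (δ : ℝ) (s : ℂ) (N : ℕ) : ∑ n ∈ range N, contT a δ n s =
    ∑ n ∈ range N, a (n + 1) * (((n : ℝ) + 1 : ℝ) : ℂ) ^ (-s) -
      δ * ∑ n ∈ range N, contG (n + 1) s - contB a δ N * (((N : ℝ) + 1 : ℝ) : ℂ) ^ (-s) := by
  induction N with
  | zero => simp [contB]
  | succ N ih =>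
    have h : contB a δ (N + 1) = contB a δ N + a (N + 1) - δ := by
      simp only [contB, sum_Icc_succ_top (Nat.succ_pos N : 1 ≤ N + 1)]
      push_cast
      ring
    rw [sum_range_succ, sum_range_succ, sum_range_succ, ih, contT, h, Nat.cast_succ]
    ring

theorem contT_norm_le {a : ℕ → ℂ} {δ K : ℝ} (h0 : 0 ≤ δ) (h1 : δ ≤ 1)
    (hB : ∀ N, ‖contB a δ N‖ ≤ K) (n : ℕ) {s : ℂ} (hs : 0 < s.re) :
    ‖contT a δ n s‖ ≤ (K + 1) * (‖s‖ * ((n : ℝ) + 1) ^ (-s.re - 1)) := by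
  have e1 := cont_sub_le (cont_one_le n) (y := (n : ℝ) + 1 + 1) ⟨by linarith, le_rfl⟩ hs
  have e2 := contG_sub_le (cont_one_le n) hs
  have hK : 0 ≤ K := (norm_nonneg _).trans (hB 0)
  refine (norm_add_le _ _).trans ?_
  rw [norm_mul, norm_mul, norm_real, Real.norm_of_nonneg h0, add_mul K]
  exact add_le_add (mul_le_mul (hB _) e1 (norm_nonneg _) hK)
    (mul_le_mul h1 e2 (norm_nonneg _) zero_le_one)

theorem cont_summable {β : ℝ} (hβ : 0 < β) : Summable fun n : ℕ => ((n : ℝ) + 1) ^ (-β - 1) := by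
  have := (summable_nat_add_iff 1).2 (Real.summable_nat_rpow.2 (show -β - 1 < -1 by linarith))
  simpa using this

theorem contT_summable {a : ℕ → ℂ} {δ K : ℝ} (h0 : 0 ≤ δ) (h1 : δ ≤ 1)
    (hB : ∀ N, ‖contB a δ N‖ ≤ K) {s : ℂ} (hs : 0 < s.re) : Summable fun n => contT a δ n s :=
  Summable.of_norm_bounded (((cont_summable hs).mul_left ‖s‖).mul_left (K + 1))
    fun n => contT_norm_le h0 h1 hB n hs

theorem contT_diff (a : ℕ → ℂ) (δ : ℝ) (n : ℕ) : Differentiable ℂ (contT a δ n) := by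
  have h := cont_one_le n
  have d1 := cont_diff_cpow (m := (n : ℝ) + 1) (by linarith) (g := fun s => -s) (by fun_prop)
  have d2 := cont_diff_cpow (m := (n : ℝ) + 1 + 1) (by linarith) (g := fun s => -s) (by fun_prop)
  exact ((d1.sub d2).const_mul _).add ((d1.sub (contG_diff h)).const_mul _)

theorem cont_tsum_diff {a : ℕ → ℂ} {δ K : ℝ} (h0 : 0 ≤ δ) (h1 : δ ≤ 1)
    (hB : ∀ N, ‖contB a δ N‖ ≤ K) :
    DifferentiableOn ℂ (fun s => ∑' n, contT a δ n s) {s | 0 < s.re} := by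
  intro s₀ hs₀
  have hs₀' : 0 < s₀.re := hs₀
  have hK : 0 ≤ K := (norm_nonneg _).trans (hB 0)
  have hU : IsOpen {s : ℂ | s₀.re / 2 < s.re ∧ ‖s‖ < ‖s₀‖ + 1} :=
    (isOpen_lt continuous_const continuous_re).inter (isOpen_lt continuous_norm continuous_const)
  have := differentiableOn_tsum_of_summable_norm
    (((cont_summable (half_pos hs₀')).mul_left (‖s₀‖ + 1)).mul_left (K + 1))
    (fun n => (contT_diff a δ n).differentiableOn) hU (fun n s hs => by
      refine (contT_norm_le h0 h1 hB n (by linarith [hs.1])).trans ?_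
      have := Real.rpow_le_rpow_of_exponent_le (cont_one_le n)
        (show -s.re - 1 ≤ -(s₀.re / 2) - 1 by linarith [hs.1])
      have := hs.2.le
      gcongr)
  exact (this.differentiableAt (hU.mem_nhds ⟨by linarith, by linarith⟩)).differentiableWithinAt

theorem cont_tendsto_cpow {s : ℂ} (hs : 0 < s.re) :
    Tendsto (fun N : ℕ => (((N : ℝ) + 1 : ℝ) : ℂ) ^ (-s)) atTop (𝓝 0) := by
  rw [tendsto_zero_iff_norm_tendsto_zero]
  have h1 : Tendsto (fun N : ℕ => (N : ℝ) + 1) atTop atTop :=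
    tendsto_atTop_add_const_right _ _ tendsto_natCast_atTop_atTop
  refine ((tendsto_rpow_neg_atTop hs).comp h1).congr fun N => ?_
  rw [norm_cpow_eq_rpow_re_of_pos (by linarith [cont_one_le N]), neg_re]
  rfl

theorem cont_tsum_eq {a : ℕ → ℂ} {δ K : ℝ} (h0 : 0 ≤ δ) (h1 : δ ≤ 1) (ha : ∀ n, ‖a n‖ ≤ 1)
    (hB : ∀ N, ‖contB a δ N‖ ≤ K) {s : ℂ} (hs : 1 < s.re) :
    LSeries a s = δ / (s - 1) + ∑' n, contT a δ n s := by
  have hs1 : s ≠ 1 := by rintro rfl; simp at hs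
  have t0 := (contT_summable h0 h1 hB (s := s) (by linarith)).hasSum.tendsto_sum_nat
  have t1 : Tendsto (fun N => ∑ n ∈ range N, a (n + 1) * (((n : ℝ) + 1 : ℝ) : ℂ) ^ (-s)) atTop
      (𝓝 (LSeries a s)) := by
    have := ((LSeriesSummable_of_bounded_of_one_lt_re (fun n _ => ha n) hs).hasSum.tendsto_sum_nat).comp
      (tendsto_add_atTop_nat 1)
    refine this.congr fun N => ?_
    simp only [Function.comp, sum_range_succ', LSeries.term_zero, add_zero]
    refine sum_congr rfl fun n _ => ?_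
    rw [LSeries.term_of_ne_zero (Nat.succ_ne_zero n), cpow_neg, div_eq_mul_inv]
    push_cast
    rfl
  have t2 : Tendsto (fun N => ∑ n ∈ range N, contG (n + 1) s) atTop (𝓝 ((1 - 0) / (s - 1))) := by
    have := ((tendsto_const_nhds (x := (1 : ℂ))).sub
      (cont_tendsto_cpow (s := s - 1) (by simp; linarith))).div_const (s - 1)
    refine this.congr fun N => ?_
    induction N with
    | zero => simp
    | succ N ih =>
      rw [sum_range_succ, ← ih, contG_eq (cont_one_le N) hs1, neg_sub, Nat.cast_succ]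
      ring
  have t3 : Tendsto (fun N : ℕ => contB a δ N * (((N : ℝ) + 1 : ℝ) : ℂ) ^ (-s)) atTop (𝓝 0) :=
    (isBoundedUnder_of ⟨K, fun N => hB N⟩ : IsBoundedUnder (· ≤ ·) atTop
      (norm ∘ contB a δ)).smul_tendsto_zero (cont_tendsto_cpow (by linarith))
  have t4 := (t1.sub (t2.const_mul (δ : ℂ))).sub t3
  have := tendsto_nhds_unique (t0.congr (contT_sum a δ s)) t4
  rw [this]
  ring

theorem cont_bern (x : ℝ) (hx : 0 ≤ x) {p : ℝ} (h0 : 0 ≤ p) (h1 : p ≤ 1) :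
    x ^ p ≤ (x + 1) ^ p - p * (x + 1) ^ (p - 1) := by
  have hx1 : 0 < x + 1 := by linarith
  have h := rpow_one_add_le_one_add_mul_self (s := -(1 / (x + 1)))
    (by rw [neg_le_neg_iff, div_le_one hx1]; linarith) h0 h1
  have e : x = (x + 1) * (1 + -(1 / (x + 1))) := by field_simp; ring
  have e2 : 0 ≤ 1 + -(1 / (x + 1)) := by
    have : 1 / (x + 1) ≤ 1 := by rw [div_le_one hx1]; linarith
    linarith
  calc x ^ p = (x + 1) ^ p * (1 + -(1 / (x + 1))) ^ p := by rw [← Real.mul_rpow hx1.le e2, ← e]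
    _ ≤ (x + 1) ^ p * (1 + p * -(1 / (x + 1))) := by gcongr
    _ = _ := by rw [Real.rpow_sub_one hx1.ne']; ring

theorem cont_head {ε : ℝ} (h0 : 0 < ε) (h1 : ε ≤ 1) (N : ℕ) :
    ∑ n ∈ range N, ((n : ℝ) + 1) ^ (ε - 1) ≤ (N : ℝ) ^ ε / ε := by
  rw [le_div_iff₀ h0]
  induction N with
  | zero => simp [Real.rpow_nonneg]
  | succ N ih =>
    have := cont_bern N (Nat.cast_nonneg N) h0.le h1
    rw [sum_range_succ, Nat.cast_succ]
    linarith

theorem cont_tail {β : ℝ} (h0 : 1 / 2 ≤ β) (h1 : β ≤ 1) {N : ℕ} (hN : 1 ≤ N) (M : ℕ) :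
    ∑ n ∈ range M, (((N + n : ℕ) : ℝ) + 1) ^ (-β - 1) ≤ 2 * (N : ℝ) ^ (-β) := by
  have key : ∑ n ∈ range M, (((N + n : ℕ) : ℝ) + 1) ^ (-β - 1) ≤
      2 * (N : ℝ) ^ (-β) - 2 * ((N + M : ℕ) : ℝ) ^ (-β) := by
    induction M with
    | zero => simp
    | succ M ih =>
      rw [sum_range_succ, ← add_assoc, Nat.cast_succ]
      obtain ⟨x, hx⟩ : ∃ x : ℝ, x = ((N + M : ℕ) : ℝ) := ⟨_, rfl⟩
      rw [← hx] at ih ⊢
      have hx1 : 1 ≤ x := by rw [hx]; exact_mod_cast hN.trans (Nat.le_add_right _ _)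
      have hb := cont_bern x (by linarith) (by linarith : 0 ≤ β) h1
      have hA : 0 < x ^ β := Real.rpow_pos_of_pos (by linarith) _
      have hBp : 0 < (x + 1) ^ β := Real.rpow_pos_of_pos (by linarith) _
      have hAB : x ^ β ≤ (x + 1) ^ β := Real.rpow_le_rpow (by linarith) (by linarith) (by linarith)
      rw [Real.rpow_sub_one (by linarith)] at hb
      have : (x + 1) ^ (-β - 1) ≤ 2 * x ^ (-β) - 2 * (x + 1) ^ (-β) := by
        rw [Real.rpow_sub_one (by linarith), Real.rpow_neg (by linarith), Real.rpow_neg (by linarith)]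
        generalize x ^ β = A at *
        generalize (x + 1) ^ β = B at *
        have hx2 : 0 < x + 1 := by linarith
        have e : 2 * A⁻¹ - 2 * B⁻¹ = 2 * (B - A) / (A * B) := by field_simp
        have h2 : B / (x + 1) ≤ 2 * (B - A) := by
          have : 0 ≤ B / (x + 1) := by positivity
          nlinarith
        calc B⁻¹ / (x + 1) = B / (x + 1) / (B * B) := by field_simp
          _ ≤ 2 * (B - A) / (A * B) := by gcongr
          _ = _ := e.symm
      linarith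
  have := Real.rpow_nonneg (Nat.cast_nonneg (N + M) : (0 : ℝ) ≤ _) (-β)
  linarith

theorem cont_tsum_le {a : ℕ → ℂ} {δ K ε : ℝ} (hε : 0 < ε) (hε1 : ε ≤ 1 / 2) (hK : 1 ≤ K)
    (h0 : 0 ≤ δ) (h1 : δ ≤ 1) (ha : ∀ n, ‖a n‖ ≤ 1) (hB : ∀ N, ‖contB a δ N‖ ≤ K) {s : ℂ}
    (hs : 1 - ε ≤ s.re) (hs4 : s.re ≤ 4) :
    ‖∑' n, contT a δ n s‖ ≤ (4 / ε + 18) * (K * (|s.im| + 2)) ^ ε := by
  have hs0 : 0 < s.re := by linarith
  obtain ⟨X, hX⟩ : ∃ X, X = K * (|s.im| + 2) := ⟨_, rfl⟩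
  have ht := abs_nonneg s.im
  have hX2 : 2 * K ≤ X := by rw [hX]; nlinarith
  obtain ⟨N, hN⟩ : ∃ N, N = ⌈X⌉₊ := ⟨_, rfl⟩
  have hXN : X ≤ N := hN ▸ Nat.le_ceil X
  have hNX : (N : ℝ) + 1 ≤ 2 * X := by
    have : (N : ℝ) < X + 1 := hN ▸ Nat.ceil_lt_add_one (by linarith)
    linarith
  have hN0 : (0 : ℝ) < N := by linarith
  have hN1 : 1 ≤ N := by exact_mod_cast hN0
  have hsn : ‖s‖ ≤ 2 * (|s.im| + 2) := by
    have := norm_le_abs_re_add_abs_im s
    rw [abs_of_pos hs0] at this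
    linarith
  have hp : ((N : ℝ) + 1) ^ ε ≤ 2 * X ^ ε := by
    calc ((N : ℝ) + 1) ^ ε ≤ (2 * X) ^ ε := by gcongr
      _ = 2 ^ ε * X ^ ε := Real.mul_rpow (by norm_num) (by linarith)
      _ ≤ 2 * X ^ ε := by
        have : (2 : ℝ) ^ ε ≤ 2 ^ (1 : ℝ) :=
          Real.rpow_le_rpow_of_exponent_le (by norm_num) (by linarith)
        rw [Real.rpow_one] at this
        have := Real.rpow_nonneg (show 0 ≤ X by linarith) ε
        gcongr
  have hp' : (N : ℝ) ^ ε ≤ 2 * X ^ ε := le_trans (by gcongr; linarith) hp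
  have hexp : ∀ n : ℕ, ((n : ℝ) + 1) ^ (-s.re) ≤ ((n : ℝ) + 1) ^ (ε - 1) := fun n =>
    Real.rpow_le_rpow_of_exponent_le (cont_one_le n) (by linarith)
  have hhead : ‖∑ n ∈ range N, contT a δ n s‖ ≤ (4 / ε + 2) * X ^ ε := by
    rw [contT_sum]
    have e0 := cont_head hε (by linarith) N
    have e1 : ‖∑ n ∈ range N, a (n + 1) * (((n : ℝ) + 1 : ℝ) : ℂ) ^ (-s)‖ ≤ (N : ℝ) ^ ε / ε := by
      refine (norm_sum_le _ _).trans ((sum_le_sum fun n _ => ?_).trans e0)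
      rw [norm_mul]
      exact (mul_le_of_le_one_left (norm_nonneg _) (ha _)).trans
        ((cont_norm_le (cont_one_le n) le_rfl hs0.le).trans (hexp n))
    have e2 : ‖(δ : ℂ) * ∑ n ∈ range N, contG (n + 1) s‖ ≤ (N : ℝ) ^ ε / ε := by
      rw [norm_mul, norm_real, Real.norm_of_nonneg h0]
      refine (mul_le_of_le_one_left (norm_nonneg _) h1).trans ?_
      exact (norm_sum_le _ _).trans ((sum_le_sum fun n _ =>
        (contG_norm_le (cont_one_le n) hs0.le).trans (hexp n)).trans e0)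
    have e3 : ‖contB a δ N * (((N : ℝ) + 1 : ℝ) : ℂ) ^ (-s)‖ ≤ ((N : ℝ) + 1) ^ ε := by
      rw [norm_mul]
      calc _ ≤ ((N : ℝ) + 1) * ((N : ℝ) + 1) ^ (ε - 1) :=
            mul_le_mul ((hB N).trans (by linarith))
              ((cont_norm_le (cont_one_le N) le_rfl hs0.le).trans (hexp N)) (norm_nonneg _)
              (by linarith)
        _ = _ := by rw [Real.rpow_sub_one (by linarith)]; field_simp
    have e4 : (N : ℝ) ^ ε / ε ≤ 2 * X ^ ε / ε := by gcongr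
    calc _ ≤ _ := norm_sub_le _ _
      _ ≤ _ := add_le_add (norm_sub_le _ _) le_rfl
      _ ≤ 2 * X ^ ε / ε + 2 * X ^ ε / ε + 2 * X ^ ε := by linarith
      _ = _ := by ring
  have htail : ∀ M, ‖∑ n ∈ range M, contT a δ (N + n) s‖ ≤ 16 * X ^ ε := by
    intro M
    have e0 := cont_tail (β := 1 - ε) (by linarith) (by linarith) hN1 M
    have e1 : ∀ n ∈ range M, ‖contT a δ (N + n) s‖ ≤
        4 * X * (((N + n : ℕ) : ℝ) + 1) ^ (-(1 - ε) - 1) := by
      intro n _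
      refine (contT_norm_le h0 h1 hB _ hs0).trans ?_
      have := Real.rpow_le_rpow_of_exponent_le (cont_one_le (N + n))
        (show -s.re - 1 ≤ -(1 - ε) - 1 by linarith)
      calc _ ≤ (2 * K) * (2 * (|s.im| + 2) * (((N + n : ℕ) : ℝ) + 1) ^ (-(1 - ε) - 1)) := by
            gcongr; linarith
        _ = _ := by rw [hX]; ring
    refine (norm_sum_le _ _).trans ((sum_le_sum e1).trans ?_)
    rw [← mul_sum]
    calc _ ≤ 4 * (N : ℝ) * (2 * (N : ℝ) ^ (-(1 - ε))) := by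
          gcongr
      _ = 8 * (N : ℝ) ^ ε := by
          rw [neg_sub, Real.rpow_sub_one hN0.ne']; field_simp; norm_num
      _ ≤ _ := by linarith
  have t0 := ((contT_summable h0 h1 hB hs0).hasSum.tendsto_sum_nat.comp
    (tendsto_add_atTop_nat N)).norm
  rw [← hX]
  refine le_of_tendsto' t0 fun M => ?_
  simp only [Function.comp]
  rw [add_comm M N, sum_range_add]
  refine (norm_add_le _ _).trans ((add_le_add hhead (htail M)).trans (le_of_eq ?_))
  ring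

theorem cont_ident {f g : ℂ → ℂ} (hf : DifferentiableOn ℂ f {s | 0 < s.re})
    (hg : DifferentiableOn ℂ g {s | 0 < s.re}) (h : ∀ s : ℂ, 1 < s.re → f s = g s) {s : ℂ}
    (hs : 0 < s.re) : f s = g s := by
  have hU : IsOpen {s : ℂ | 0 < s.re} := isOpen_lt continuous_const continuous_re
  refine (hf.analyticOnNhd hU).eqOn_of_preconnected_of_eventuallyEq (hg.analyticOnNhd hU)
    (convex_halfSpace_re_gt 0).isPreconnected (z₀ := 2) (by simp) ?_ hs
  have : ∀ᶠ s : ℂ in 𝓝 2, 1 < s.re :=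
    (isOpen_lt continuous_const continuous_re).mem_nhds (by simp)
  exact this.mono h

theorem cont_periodic {q : ℕ} [NeZero q] (F : ZMod q → ℂ) (hF : ∀ x, ‖F x‖ ≤ 1)
    (h0 : ∑ x, F x = 0) (N : ℕ) : ‖∑ n ∈ Icc 1 N, F n‖ ≤ q := by
  have h1 : ∀ M : ℕ, ∑ i ∈ range q, F ((M + i : ℕ) : ZMod q) = 0 := by
    intro M
    rw [← h0, ← Equiv.sum_comp (Equiv.addLeft (M : ZMod q)) F]
    refine sum_nbij' (fun i => (i : ZMod q)) ZMod.val (by simp) (fun x _ => by simp [ZMod.val_lt])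
      (fun i hi => ZMod.val_cast_of_lt (mem_range.1 hi)) (by simp) (by simp)
  induction N using Nat.strong_induction_on with
  | _ N ih =>
    rcases lt_or_ge N q with h | h
    · refine (norm_sum_le _ _).trans ((sum_le_card_nsmul _ _ 1 fun n _ => hF _).trans ?_)
      simpa using h.le
    · obtain ⟨M, rfl⟩ := Nat.exists_eq_add_of_le' h
      have e : ∑ n ∈ Icc 1 (M + q), F n = ∑ n ∈ Icc 1 M, F n + ∑ i ∈ range q, F ((M + 1 + i : ℕ)) := by
        rw [← Finset.Ico_add_one_right_eq_Icc, ← Finset.Ico_add_one_right_eq_Icc,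
          ← sum_Ico_consecutive _ (show 1 ≤ M + 1 by omega) (show M + 1 ≤ M + q + 1 by omega),
          sum_Ico_eq_sum_range _ (M + 1), show M + q + 1 - (M + 1) = q by omega]
      rw [e, h1, add_zero]
      exact ih M (by have := NeZero.pos q; omega)

end

/-- Abstract continuation.  Hint: `Φ s = δ·(ζ-part) + ∑ (S n - δ n)(n^{-s} - (n+1)^{-s})`, i.e.
`Φ s = ∑' n≥1, [(a n - δ) n^{-s} summed by parts] + δ ∑' n≥1, (n^{-s} - ∫_n^{n+1} y^{-s} dy)`;
both series converge locally uniformly on `re s > 0` (`differentiableOn_tsum_of_summable_norm`,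
`‖n^{-s} - (n+1)^{-s}‖ ≤ ‖s‖ n^{-σ-1}`).  For the bound cut at `N = ⌈K(|t|+2)⌉`: the head is
`∑_{n ≤ N} a n n^{-s} - δ ∫_1^{N+1} y^{-s} dy` plus a boundary term, each `≤ C N^ε`, the tail is
`≤ C K ‖s‖ N^{-σ}`. -/
theorem exists_cont (ε : ℝ) (hε : 0 < ε) (hε1 : ε ≤ 1 / 2) :
    ∃ C : ℝ, 0 < C ∧ ∀ (a : ℕ → ℂ) (δ K : ℝ), 1 ≤ K → 0 ≤ δ → δ ≤ 1 → (∀ n, ‖a n‖ ≤ 1) →
      (∀ N : ℕ, ‖∑ n ∈ Icc 1 N, a n - (δ : ℂ) * N‖ ≤ K) →
      ∃ Φ : ℂ → ℂ, DifferentiableOn ℂ Φ {s | 0 < s.re} ∧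
        (∀ s : ℂ, 1 < s.re → LSeries a s = δ / (s - 1) + Φ s) ∧
        ∀ s : ℂ, 1 - ε ≤ s.re → s.re ≤ 4 → ‖Φ s‖ ≤ C * (K * (|s.im| + 2)) ^ ε := by
  exact ⟨4 / ε + 18, by positivity, fun a δ K hK h0 h1 ha hB =>
    ⟨fun s => ∑' n, contT a δ n s, cont_tsum_diff h0 h1 hB,
      fun s hs => cont_tsum_eq h0 h1 ha hB hs,
      fun s hs hs4 => cont_tsum_le hε hε1 hK h0 h1 ha hB hs hs4⟩⟩

/-- nonprincipal characters (partial sums bounded by `q`; identity theorem on `re s > 0`) -/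
theorem LFunction_bound (ε : ℝ) (hε : 0 < ε) (hε1 : ε ≤ 1 / 2) :
    ∃ C : ℝ, 0 < C ∧ ∀ (q : ℕ) [NeZero q] (χ : DirichletCharacter ℂ q), χ ≠ 1 →
      ∀ s : ℂ, 1 - ε ≤ s.re → s.re ≤ 4 → ‖LFunction χ s‖ ≤ C * ((q : ℝ) * (|s.im| + 2)) ^ ε := by
  obtain ⟨C, hC, h⟩ := exists_cont ε hε hε1
  refine ⟨C, hC, fun q _ χ hχ s hs hs4 => ?_⟩
  obtain ⟨Φ, hΦ, hL, hb⟩ := h (fun n => χ n) 0 q (by exact_mod_cast NeZero.one_le) le_rfl
    zero_le_one (fun n => χ.norm_le_one _) (fun N => by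
      simpa using cont_periodic χ χ.norm_le_one (MulChar.sum_eq_zero_of_ne_one hχ) N)
  rw [cont_ident (differentiable_LFunction hχ).differentiableOn hΦ
    (fun s hs => by rw [LFunction_eq_LSeries χ hs, hL s hs]; simp) (by linarith)]
  exact hb s hs hs4

/-- all characters, to the right of `1` (for `χ = 1` take `δ = φ(q)/q`) -/
theorem LFunction_bound' (ε : ℝ) (hε : 0 < ε) (hε1 : ε ≤ 1 / 2) :
    ∃ C : ℝ, 0 < C ∧ ∀ (q : ℕ) [NeZero q] (χ : DirichletCharacter ℂ q),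
      ∀ s : ℂ, 1 < s.re → s.re ≤ 4 →
        ‖LFunction χ s‖ ≤ 1 / ‖s - 1‖ + C * ((q : ℝ) * (|s.im| + 2)) ^ ε := by
  obtain ⟨C, hC, h⟩ := exists_cont ε hε hε1
  obtain ⟨C', hC', h'⟩ := LFunction_bound ε hε hε1
  refine ⟨C + C', by positivity, fun q _ χ s hs hs4 => ?_⟩
  have hX : 0 ≤ ((q : ℝ) * (|s.im| + 2)) ^ ε := by positivity
  have hn : 0 ≤ 1 / ‖s - 1‖ := by positivity
  by_cases hχ : χ = 1
  · subst hχ
    have hq : (0 : ℝ) < q := by exact_mod_cast NeZero.pos q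
    have hq' : (q : ℂ) ≠ 0 := by exact_mod_cast NeZero.ne q
    obtain ⟨δ, hδ⟩ : ∃ δ : ℝ, δ = Fintype.card (ZMod q)ˣ / q := ⟨_, rfl⟩
    have h0 : 0 ≤ δ := by rw [hδ]; positivity
    have h1 : δ ≤ 1 := by
      rw [hδ, div_le_one hq, ZMod.card_units_eq_totient]
      exact_mod_cast Nat.totient_le q
    obtain ⟨Φ, -, hL, hb⟩ := h (fun n => (1 : DirichletCharacter ℂ q) n) δ q
      (by exact_mod_cast NeZero.one_le) h0 h1 (fun n => norm_le_one _ _) (fun N => by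
        have := cont_periodic (fun x => (1 : DirichletCharacter ℂ q) x - δ) (fun x => by
          by_cases hx : IsUnit x
          · rw [MulChar.one_apply hx, ← ofReal_one, ← ofReal_sub, norm_real, Real.norm_eq_abs, abs_le]
            constructor <;> linarith
          · rw [MulChar.map_nonunit _ hx, zero_sub, norm_neg, norm_real, Real.norm_of_nonneg h0]
            exact h1) (by
          rw [sum_sub_distrib, MulChar.sum_one_eq_card_units, hδ]
          simp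
          field_simp
          ring) N
        simpa [mul_comm] using this)
    rw [LFunction_eq_LSeries _ hs, hL s hs]
    refine (norm_add_le _ _).trans (add_le_add ?_ ((hb s (by linarith) hs4).trans ?_))
    · rw [norm_div, norm_real, Real.norm_of_nonneg h0]
      gcongr
    · nlinarith
  · have := h' q χ hχ s (by linarith) hs4
    nlinarith

theorem exists_Z0 : ∃ Z : ℂ → ℂ, DifferentiableOn ℂ Z {s | 0 < s.re} ∧
    (∀ s : ℂ, 0 < s.re → s ≠ 1 → riemannZeta s = 1 / (s - 1) + Z s) ∧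
    ∀ ε : ℝ, 0 < ε → ε ≤ 1 / 2 → ∃ C : ℝ, 0 < C ∧
      ∀ s : ℂ, 1 - ε ≤ s.re → s.re ≤ 4 → ‖Z s‖ ≤ C * (|s.im| + 2) ^ ε := by
  refine ⟨riemannZeta₀, differentiable_riemannZeta₀.differentiableOn,
    fun s _ h1 => by rw [riemannZeta_eq_inv_sub_add h1, one_div], fun ε hε hε1 => ?_⟩
  obtain ⟨C, hC, h⟩ := exists_cont ε hε hε1
  obtain ⟨Φ, hΦ, hL, hb⟩ := h 1 1 1 le_rfl zero_le_one le_rfl (by simp) (by simp)
  refine ⟨C, hC, fun s hs hs4 => ?_⟩
  rw [cont_ident differentiable_riemannZeta₀.differentiableOn hΦ (fun s hs => by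
    have hs1 : s ≠ 1 := by rintro rfl; simp at hs
    have e := hL s hs
    rw [LSeries_one_eq_riemannZeta hs, riemannZeta_eq_inv_sub_add hs1] at e
    simpa using e) (by linarith)]
  simpa using hb s hs hs4

/-- the regular part of `ζ` -/
noncomputable def Z0 : ℂ → ℂ := Classical.choose exists_Z0

theorem Z0_diff : DifferentiableOn ℂ Z0 {s | 0 < s.re} := (Classical.choose_spec exists_Z0).1

theorem zeta_eq_Z0 {s : ℂ} (hs : 0 < s.re) (h1 : s ≠ 1) : riemannZeta s = 1 / (s - 1) + Z0 s :=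
  (Classical.choose_spec exists_Z0).2.1 s hs h1

theorem Z0_bound (ε : ℝ) (hε : 0 < ε) (hε1 : ε ≤ 1 / 2) : ∃ C : ℝ, 0 < C ∧
    ∀ s : ℂ, 1 - ε ≤ s.re → s.re ≤ 4 → ‖Z0 s‖ ≤ C * (|s.im| + 2) ^ ε :=
  (Classical.choose_spec exists_Z0).2.2 ε hε hε1

end Crest.Agent.SW
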