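import Crest.Agent.Lib.SW.Lower

/-!
# SW / Deriv: derivatives of logarithmic derivatives by Cauchy's estimate
-/

set_option autoImplicit false

namespace Crest.Agent.SW

open Finset Complex DirichletCharacter ArithmeticFunction

/-- `f` has no zero in the disc of radius `r' = r λ/(8U)`, there `‖f‖ ≥ λ/2`, `‖f'‖ ≤ 2U/r`; Cauchy. -/
theorem logDeriv_bound {f : ℂ → ℂ} {s₀ : ℂ} {r U lam : ℝ} (hr : 0 < r) (hlam : 0 < lam)
    (hf : DifferentiableOn ℂ f (Metric.ball s₀ (2 * r))) (hU : ∀ s ∈ Metric.ball s₀ (2 * r), ‖f s‖ ≤ U)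
    (hl : lam ≤ ‖f s₀‖) (m : ℕ) :
    ‖iteratedDeriv m (fun s => deriv f s / f s) s₀‖ ≤
      (m.factorial : ℝ) * (4 * U / (r * lam)) * (8 * U / (r * lam)) ^ m := by
  have h0 : s₀ ∈ Metric.ball s₀ (2 * r) := Metric.mem_ball_self (by linarith)
  have hlU : lam ≤ U := hl.trans (hU s₀ h0)
  have hU0 : 0 < U := hlam.trans_le hlU
  set ρ := r * lam / (8 * U) with hρ
  have hρ0 : 0 < ρ := by positivity
  have hρr : ρ ≤ r := by
    rw [hρ, div_le_iff₀ (by positivity)]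
    nlinarith
  have hmaps : ∀ z ∈ Metric.ball s₀ (2 * r),
      Set.MapsTo f (Metric.ball s₀ (2 * r)) (Metric.closedBall (f z) (2 * U)) := by
    intro z hz w hw
    rw [Metric.mem_closedBall, dist_eq_norm]
    linarith [norm_sub_le (f w) (f z), hU w hw, hU z hz]
  have hsub : Metric.closedBall s₀ ρ ⊆ Metric.ball s₀ (2 * r) :=
    Metric.closedBall_subset_ball (by linarith)
  have h1 : ∀ z ∈ Metric.closedBall s₀ ρ, ‖deriv f z‖ ≤ 2 * U / r := by
    intro z hz
    have hs : Metric.ball z r ⊆ Metric.ball s₀ (2 * r) :=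
      Metric.ball_subset_ball' (by rw [Metric.mem_closedBall] at hz; linarith)
    exact norm_deriv_le_div_of_mapsTo_ball (hf.mono hs) ((hmaps z (hsub hz)).mono_left hs) hr
  have h2 : ∀ z ∈ Metric.closedBall s₀ ρ, lam / 2 ≤ ‖f z‖ := by
    intro z hz
    have u1 := dist_le_div_mul_dist_of_mapsTo_ball hf (hmaps s₀ h0) (hsub hz)
    have u2 : 2 * U / (2 * r) * dist z s₀ ≤ 2 * U / (2 * r) * ρ :=
      mul_le_mul_of_nonneg_left hz (by positivity)
    have u3 : 2 * U / (2 * r) * ρ = lam / 8 := by rw [hρ]; field_simp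
    rw [dist_eq_norm] at u1
    have u4 := norm_sub_norm_le (f s₀) (f z)
    rw [norm_sub_rev] at u4
    linarith
  have h3 : DifferentiableOn ℂ (fun s => deriv f s / f s) (Metric.closedBall s₀ ρ) :=
    ((hf.deriv Metric.isOpen_ball).mono hsub).div (hf.mono hsub) fun z hz h => by
      have := h2 z hz
      rw [h, norm_zero] at this
      linarith
  have h4 := norm_iteratedDeriv_le_of_forall_mem_sphere_norm_le (C := 4 * U / (r * lam)) m hρ0
    (h3.diffContOnCl_ball subset_rfl) fun z hz => by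
      have hz' := Metric.sphere_subset_closedBall hz
      rw [norm_div]
      calc ‖deriv f z‖ / ‖f z‖ ≤ 2 * U / r / (lam / 2) :=
            div_le_div₀ (by positivity) (h1 z hz') (by positivity) (h2 z hz')
        _ = 4 * U / (r * lam) := by field_simp; ring
  refine h4.trans_eq ?_
  rw [div_eq_mul_inv, ← inv_pow, hρ, inv_div]

theorem swd_wrap (m : ℕ) {ε : ℝ} (hε : 0 < ε) : ∃ ε₀ : ℝ, 0 < ε₀ ∧ ε₀ ≤ 1 / 2 ∧ ε₀ ≤ ε ∧
    ∀ C c : ℝ, 0 < C → 0 < c → ∃ C' : ℝ, 0 < C' ∧ ∀ (f : ℂ → ℂ) (s : ℂ) (P : ℝ), 1 ≤ P →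
      DifferentiableOn ℂ f (Metric.ball s ε₀) → (∀ z ∈ Metric.ball s ε₀, ‖f z‖ ≤ C * P ^ ε₀) →
      c * P ^ (-ε₀) ≤ ‖f s‖ → ‖iteratedDeriv m (fun s => deriv f s / f s) s‖ ≤ C' * P ^ ε := by
  set ε₀ := min (1 / 2) (ε / (2 * (m + 1))) with hε₀
  have h0 : 0 < ε₀ := lt_min (by norm_num) (by positivity)
  have h1 : 2 * (m + 1) * ε₀ ≤ ε := by
    rw [mul_comm, ← le_div_iff₀ (by positivity)]
    exact min_le_right _ _
  have hm : (0 : ℝ) ≤ m := Nat.cast_nonneg _
  refine ⟨ε₀, h0, min_le_left _ _, by nlinarith, fun C c hC hc => ?_⟩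
  refine ⟨m.factorial * (4 * C / (ε₀ / 2 * c)) * (8 * C / (ε₀ / 2 * c)) ^ m, by positivity,
    fun f s P hP hf hU hl => ?_⟩
  have hP0 : 0 < P := by linarith
  have e : 2 * (ε₀ / 2) = ε₀ := by ring
  have h2 := logDeriv_bound (r := ε₀ / 2) (by positivity)
    (show 0 < c * P ^ (-ε₀) by positivity) (by rwa [e]) (by rwa [e]) hl m
  refine h2.trans ?_
  have hQ : 0 < P ^ ε₀ := Real.rpow_pos_of_pos hP0 _
  have h3 : (P ^ ε₀) ^ (2 * (m + 1)) ≤ P ^ ε := by
    rw [← Real.rpow_mul_natCast hP0.le]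
    refine Real.rpow_le_rpow_of_exponent_le hP ?_
    push_cast
    linarith
  have e1 : 4 * (C * P ^ ε₀) / (ε₀ / 2 * (c * P ^ (-ε₀))) =
      4 * C / (ε₀ / 2 * c) * (P ^ ε₀) ^ 2 := by
    rw [Real.rpow_neg hP0.le]; field_simp
  have e2 : 8 * (C * P ^ ε₀) / (ε₀ / 2 * (c * P ^ (-ε₀))) =
      8 * C / (ε₀ / 2 * c) * (P ^ ε₀) ^ 2 := by
    rw [Real.rpow_neg hP0.le]; field_simp
  rw [e1, e2, mul_pow]
  calc _ = m.factorial * (4 * C / (ε₀ / 2 * c)) * (8 * C / (ε₀ / 2 * c)) ^ m *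
        (P ^ ε₀) ^ (2 * (m + 1)) := by ring
    _ ≤ _ := mul_le_mul_of_nonneg_left h3 (by positivity)

theorem swd_logMul (a : ℕ → ℂ) (m : ℕ) :
    LSeries.logMul^[m] a = fun n : ℕ => a n * (Real.log n : ℂ) ^ m := by
  induction m with
  | zero => simp
  | succ m ih =>
    rw [Function.iterate_succ_apply', ih]
    funext n
    rw [LSeries.logMul, ← Complex.natCast_log]
    ring

theorem swd_norm_eq {a : ℕ → ℂ} {G : ℂ → ℂ} (ha : ∀ s : ℂ, 1 < s.re → LSeriesSummable a s)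
    (hG : ∀ s : ℂ, 1 < s.re → LSeries a s = G s) (m : ℕ) {s : ℂ} (hs : 1 < s.re) :
    ‖LSeries (fun n : ℕ => a n * (Real.log n : ℂ) ^ m) s‖ = ‖iteratedDeriv m G s‖ := by
  have h1 : LSeries.abscissaOfAbsConv a ≤ (1 : ℝ) :=
    LSeries.abscissaOfAbsConv_le_of_forall_lt_LSeriesSummable fun y hy => ha y (by simpa using hy)
  have h2 := LSeries_iteratedDeriv (f := a) m (s := s) (h1.trans_lt (by exact_mod_cast hs))
  have h3 : LSeries a =ᶠ[nhds s] G := by
    filter_upwards [(isOpen_lt continuous_const continuous_re).mem_nhds hs] with z hz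
    exact hG z hz
  rw [← h3.iteratedDeriv_eq m, h2, swd_logMul, norm_mul, norm_pow, norm_neg, norm_one, one_pow,
    one_mul]

theorem swd_ball {s z : ℂ} {e : ℝ} (he : e ≤ 1 / 2) (h1 : 1 < s.re) (h2 : s.re ≤ 2)
    (hz : dist z s ≤ e) : 1 - e ≤ z.re ∧ z.re ≤ 4 ∧ |z.im| + 2 ≤ 2 * (|s.im| + 2) := by
  rw [dist_eq_norm] at hz
  have u1 := abs_le.1 ((abs_re_le_norm (z - s)).trans hz)
  have u2 := (abs_im_le_norm (z - s)).trans hz
  rw [sub_re] at u1
  rw [sub_im] at u2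
  have u3 := abs_sub_abs_le_abs_sub z.im s.im
  refine ⟨by linarith [u1.1], by linarith [u1.2], by linarith [abs_nonneg s.im]⟩

theorem swd_rpow {x P e : ℝ} (hx : 0 ≤ x) (hP : 0 ≤ P) (h : x ≤ 2 * P) (he : 0 ≤ e) (he1 : e ≤ 1 / 2) :
    x ^ e ≤ 2 * P ^ e := by
  refine (Real.rpow_le_rpow hx h he).trans ?_
  rw [Real.mul_rpow (by norm_num) hP]
  refine mul_le_mul_of_nonneg_right ?_ (Real.rpow_nonneg hP _)
  calc (2 : ℝ) ^ e ≤ 2 ^ (1 : ℝ) := Real.rpow_le_rpow_of_exponent_le (by norm_num) (by linarith)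
    _ = 2 := Real.rpow_one 2

/-- `LSeries_twist_vonMangoldt_eq`, `LSeries_iteratedDeriv`, `logDeriv_bound` with `f = LFunction χ`,
`r = ε₀/2`, `ε₀` small in terms of `m, ε` -/
theorem twist_bound (m : ℕ) (ε : ℝ) (hε : 0 < ε) : ∃ C : ℝ, 0 < C ∧
    ∀ (q : ℕ) [NeZero q] (χ : DirichletCharacter ℂ q), χ ≠ 1 → ∀ s : ℂ, 1 < s.re → s.re ≤ 2 →
      ‖LSeries (fun n : ℕ => χ n * (vonMangoldt n : ℂ) * (Real.log n : ℂ) ^ m) s‖ ≤
        C * ((q : ℝ) * (|s.im| + 2)) ^ ε := by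
  obtain ⟨e, he0, he1, -, hw⟩ := swd_wrap m hε
  obtain ⟨C, hC, hU⟩ := LFunction_bound e he0 he1
  obtain ⟨c, hc, hl⟩ := LFunction_lower e he0
  obtain ⟨C', hC', h⟩ := hw (2 * C) c (by positivity) hc
  refine ⟨C', hC', fun q _ χ hχ s h1 h2 => ?_⟩
  have hq : (1 : ℝ) ≤ q := by exact_mod_cast NeZero.one_le
  have e1 := swd_norm_eq (a := fun n : ℕ => χ n * (vonMangoldt n : ℂ))
    (G := fun s => -(deriv (LFunction χ) s / LFunction χ s))
    (fun s hs => LSeriesSummable_twist_vonMangoldt χ hs)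
    (fun s hs => by
      rw [deriv_LFunction_eq_deriv_LSeries χ hs, LFunction_eq_LSeries χ hs, ← neg_div]
      exact LSeries_twist_vonMangoldt_eq χ hs) m h1
  rw [e1, iteratedDeriv_fun_neg, norm_neg]
  refine h (LFunction χ) s _ (by nlinarith [abs_nonneg s.im])
    (differentiable_LFunction hχ).differentiableOn (fun z hz => ?_) (hl q χ hχ s h1 h2)
  obtain ⟨a1, a2, a3⟩ := swd_ball he1 h1 h2 (Metric.mem_ball.1 hz).le
  refine (hU q χ hχ z a1 a2).trans ?_
  have := swd_rpow (x := q * (|z.im| + 2)) (P := q * (|s.im| + 2)) (by positivity) (by positivity)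
    (by nlinarith) he0.le he1
  nlinarith

/-- with `f s = (1 + (s-1) Z0 s)/s = ζ(s)(s-1)/s`: `-ζ'/ζ - ζ = -f'/f - 1/s - Z0`;
`‖f‖ ≤ C (|t|+2)^{ε₀}` near the line since `‖(s-1)/s‖` is bounded there -/
theorem one_bound (m : ℕ) (ε : ℝ) (hε : 0 < ε) : ∃ C : ℝ, 0 < C ∧
    ∀ s : ℂ, 1 < s.re → s.re ≤ 2 →
      ‖LSeries (fun n : ℕ => ((vonMangoldt n : ℂ) - 1) * (Real.log n : ℂ) ^ m) s‖ ≤
        C * (|s.im| + 2) ^ ε := by
  obtain ⟨e, he0, he1, heε, hw⟩ := swd_wrap m hε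
  obtain ⟨C, hC, hU⟩ := Z0_bound e he0 he1
  obtain ⟨c, hc, hl⟩ := zeta_lower e he0
  obtain ⟨C', hC', h⟩ := hw (2 + 6 * C) c (by positivity) hc
  refine ⟨C' + m.factorial * (2 + 2 * C) / (e / 2) ^ m, by positivity, fun s h1 h2 => ?_⟩
  set f : ℂ → ℂ := fun s => (1 + (s - 1) * Z0 s) / s with hf
  set g : ℂ → ℂ := fun s => 1 / s + Z0 s with hg
  have hO : IsOpen {s : ℂ | 0 < s.re} := isOpen_lt continuous_const continuous_re
  have hne : ∀ z ∈ {s : ℂ | 0 < s.re}, z ≠ 0 := fun z hz h => by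
    rw [h] at hz
    simp at hz
  have hfd : DifferentiableOn ℂ f {s | 0 < s.re} :=
    ((differentiableOn_const _).add ((differentiableOn_id.sub_const _).mul Z0_diff)).div
      differentiableOn_id hne
  have hgd : DifferentiableOn ℂ g {s | 0 < s.re} :=
    ((differentiableOn_const _).div differentiableOn_id hne).add Z0_diff
  have hG : ∀ s : ℂ, 1 < s.re → LSeries (fun n : ℕ => (vonMangoldt n : ℂ) - 1) s =
      -(deriv f s / f s + g s) := by
    intro s hs
    have hs1 : s ≠ 1 := fun h => by rw [h] at hs; simp at hs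
    have hs0 : s ≠ 0 := hne s (show 0 < s.re by linarith)
    have hs1' : s - 1 ≠ 0 := sub_ne_zero.2 hs1
    have hζ : riemannZeta s ≠ 0 := riemannZeta_ne_zero_of_one_lt_re hs
    have u1 : f =ᶠ[nhds s] fun z => riemannZeta z * (z - 1) / z := by
      filter_upwards [(isOpen_lt continuous_const continuous_re).mem_nhds hs] with z hz
      have hz : 1 < z.re := hz
      have hz1 : z ≠ 1 := fun h => by rw [h] at hz; simp at hz
      have hz1' : z - 1 ≠ 0 := sub_ne_zero.2 hz1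
      simp only [hf]
      rw [zeta_eq_Z0 (by linarith) hz1]
      field_simp
    have u2 := (((differentiableAt_riemannZeta hs1).hasDerivAt.mul
      ((hasDerivAt_id s).sub_const 1)).div (hasDerivAt_id s) hs0).deriv
    have u3 : deriv f s = ((deriv riemannZeta s * (s - 1) + riemannZeta s * 1) * s -
        riemannZeta s * (s - 1) * 1) / s ^ 2 := u1.deriv_eq.trans u2
    have u4 : LSeries (fun n : ℕ => (vonMangoldt n : ℂ) - 1) s =
        -deriv riemannZeta s / riemannZeta s - riemannZeta s := by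
      rw [← LSeries_vonMangoldt_eq_deriv_riemannZeta_div hs, ← LSeries_one_eq_riemannZeta hs]
      exact LSeries_sub (LSeriesSummable_vonMangoldt hs) (LSeriesSummable_one_iff.2 hs)
    have u5 : Z0 s = riemannZeta s - 1 / (s - 1) := by
      rw [zeta_eq_Z0 (by linarith) hs1]; ring
    rw [u4, u3, u1.eq_of_nhds]
    simp only [hg]
    rw [u5]
    field_simp
    ring
  have e1 := swd_norm_eq (a := fun n : ℕ => (vonMangoldt n : ℂ) - 1)
    (fun s hs => (LSeriesSummable_vonMangoldt hs).sub (LSeriesSummable_one_iff.2 hs)) hG m h1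
  have hs0 : s ∈ {s : ℂ | 0 < s.re} := show 0 < s.re by linarith
  set P := |s.im| + 2 with hP
  have hP1 : 1 ≤ P := by linarith [abs_nonneg s.im]
  have hl' := hl s h1 h2
  have hfs : f s ≠ 0 := fun h0 => by
    have : 0 < c * P ^ (-e) := by positivity
    simp only [hf] at h0
    rw [h0, norm_zero] at hl'
    linarith
  have hfa : AnalyticAt ℂ f s := hfd.analyticAt (hO.mem_nhds hs0)
  have hga : AnalyticAt ℂ g s := hgd.analyticAt (hO.mem_nhds hs0)
  have hPe : 1 ≤ P ^ e := Real.one_le_rpow hP1 he0.le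
  have hPε : P ^ e ≤ P ^ ε := Real.rpow_le_rpow_of_exponent_le hP1 heε
  have hb : ∀ z : ℂ, dist z s ≤ e → 0 < z.re ∧ ‖1 / z‖ ≤ 2 ∧ ‖Z0 z‖ ≤ 2 * C * P ^ e := by
    intro z hz
    obtain ⟨a1, a2, a3⟩ := swd_ball he1 h1 h2 hz
    refine ⟨by linarith, ?_, (hU z a1 a2).trans ?_⟩
    · have := re_le_norm z
      rw [norm_div, norm_one, div_le_iff₀ (by linarith)]
      linarith
    · have := swd_rpow (by positivity) (by positivity) a3 he0.le he1
      nlinarith
  have b1 := h f s P hP1 (hfd.mono fun z hz => (hb z (Metric.mem_ball.1 hz).le).1)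
    (fun z hz => by
      obtain ⟨a1, a2, a3⟩ := hb z (Metric.mem_ball.1 hz).le
      have hz0 : z ≠ 0 := hne z a1
      have e2 : f z = 1 / z + (1 - 1 / z) * Z0 z := by
        simp only [hf]; field_simp
      have a4 : ‖1 - 1 / z‖ ≤ 3 := by
        refine (norm_sub_le _ _).trans ?_
        rw [norm_one]; linarith
      rw [e2]
      refine (norm_add_le _ _).trans ?_
      rw [norm_mul]
      have := mul_le_mul a4 a3 (norm_nonneg _) (by norm_num)
      nlinarith) hl'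
  have b2 := norm_iteratedDeriv_le_of_forall_mem_sphere_norm_le (c := s) (R := e / 2)
    (C := (2 + 2 * C) * P ^ ε) m (by positivity)
    (hgd.diffContOnCl_ball fun z hz => (hb z (by rw [Metric.mem_closedBall] at hz; linarith)).1)
    fun z hz => by
      obtain ⟨-, a2, a3⟩ := hb z (by rw [Metric.mem_sphere] at hz; linarith)
      refine (norm_add_le _ _).trans ?_
      nlinarith
  rw [e1, iteratedDeriv_fun_neg, norm_neg,
    iteratedDeriv_fun_add (hfa.deriv.fun_div hfa hfs).contDiffAt hga.contDiffAt]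
  refine (norm_add_le _ _).trans ((add_le_add b1 b2).trans_eq ?_)
  ring

end Crest.Agent.SW
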