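import Crest.Agent.Lib.SW.Cont

/-!
# SW / Estermann: the Taylor-series lemma behind Siegel's theorem (Davenport, ch. 21)
-/

set_option autoImplicit false

namespace Crest.Agent.SW

open Finset Complex
open scoped ComplexOrder

theorem estermann_real {K x lam S : ℝ} {r : ℕ → ℝ} (hs : HasSum (fun m => r m * x ^ m) S)
    (hx : 1 < x) (hx' : x ≤ 9 / 8) (hr : ∀ m, -lam ≤ r m) (h0 : 1 - lam ≤ r 0)
    (hK : ∀ m, |r m| ≤ K * (2 / 3) ^ m) (hS : S ≤ lam / (x - 1)) (M : ℕ)
    (hM : 4 * K * (3 / 4) ^ (M + 1) ≤ 1 / 2) : (x - 1) / 2 ≤ lam * x ^ (M + 1) := by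
  have hK0 : 0 ≤ K := by simpa using (abs_nonneg _).trans (hK 0)
  have hx0 : 0 < x := by linarith
  have h1 := (hasSum_nat_add_iff' (M + 1)).2 hs
  have h2 : HasSum (fun n : ℕ => -(K * (3 / 4) ^ (M + 1)) * (3 / 4 : ℝ) ^ n)
      (-(K * (3 / 4) ^ (M + 1)) * (1 - 3 / 4)⁻¹) :=
    (hasSum_geometric_of_lt_one (by norm_num) (by norm_num)).mul_left _
  have h3 := hasSum_le (fun n => ?_) h2 h1
  · have h4 : 1 - lam * ∑ i ∈ range (M + 1), x ^ i ≤ ∑ i ∈ range (M + 1), r i * x ^ i := by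
      rw [mul_sum, sum_range_succ', sum_range_succ']
      have : -∑ i ∈ range M, lam * x ^ (i + 1) ≤ ∑ i ∈ range M, r (i + 1) * x ^ (i + 1) := by
        rw [← sum_neg_distrib]
        refine sum_le_sum fun i _ => ?_
        rw [← neg_mul]
        exact mul_le_mul_of_nonneg_right (hr _) (by positivity)
      simp only [pow_zero, mul_one]
      linarith
    rw [geom_sum_eq hx.ne'] at h4
    have h5 : 1 / 2 ≤ lam / (x - 1) + lam * ((x ^ (M + 1) - 1) / (x - 1)) := by
      norm_num at h3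
      linarith
    have h6 : lam / (x - 1) + lam * ((x ^ (M + 1) - 1) / (x - 1)) =
        lam * x ^ (M + 1) / (x - 1) := by ring
    rw [h6, le_div_iff₀ (by linarith)] at h5
    linarith
  · have h7 : |r (n + (M + 1)) * x ^ (n + (M + 1))| ≤ K * (3 / 4) ^ (n + (M + 1)) := by
      rw [abs_mul, abs_of_pos (pow_pos hx0 _)]
      calc _ ≤ K * (2 / 3) ^ (n + (M + 1)) * (9 / 8) ^ (n + (M + 1)) :=
            mul_le_mul (hK _) (pow_le_pow_left₀ hx0.le hx' _) (by positivity) (by positivity)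
        _ = _ := by rw [mul_assoc, ← mul_pow]; norm_num
    have h8 := neg_le_of_abs_le h7
    rw [pow_add (3 / 4 : ℝ)] at h8
    linarith

theorem estermann_inv (m : ℕ) :
    iteratedDeriv m (fun s : ℂ => (s - 1)⁻¹) 2 = (-1) ^ m * m.factorial := by
  rw [iteratedDeriv_comp_sub_const m (fun s : ℂ => s⁻¹) 1, iteratedDeriv_eq_iterate]
  have := iter_deriv_inv (𝕜 := ℂ) m (2 - 1)
  simp only [show (2 : ℂ) - 1 = 1 by norm_num, one_zpow, mul_one] at this ⊢
  exact this

theorem estermann_one_le {a : ℕ → ℂ} (ha : 0 ≤ a) (h1 : a 1 = 1) (hs : LSeriesSummable a 2) :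
    1 ≤ LSeries a 2 := by
  have h := Summable.le_tsum hs 1 fun j _ => by
    have := LSeries.term_nonneg (ha j) 2
    simpa using this
  rw [LSeries.term_of_ne_zero one_ne_zero, h1] at h
  simpa [LSeries] using h

/-- Hint.  `λ = g 1`, `h s = Z0 s * g s + dslope g 1 s` is differentiable on `re s > 0`, equals
`ζ s * g s - λ/(s-1)` for `s ≠ 1`, and `‖h‖ ≤ C₁ U` on the circle `‖s-2‖ = 3/2` (there `‖s-1‖ ≥ 1/2`).
Its Taylor coefficients at `2` are `(-1)^m (b m - λ)` with `b m = (-1)^m (LSeries a)^{(m)}(2)/m! ≥ 0`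
(`LSeries.iteratedDeriv_alternating`), `b 0 ≥ 1`, and Cauchy
(`Complex.norm_iteratedDeriv_le_of_forall_mem_sphere_norm_le`) gives `‖b m - λ‖ ≤ C₁ U (2/3)^m`.
With `Complex.hasSum_taylorSeries_on_ball`: `re λ/(1-β) ≥ re (h β) ≥ 1 - re λ ((2-β)^M - 1)/(1-β) - 4 C₁ U (3/4)^M`;
take `M = ⌈log (8 C₁ U)/log (4/3)⌉` and `(2-β)^M ≤ exp (M(1-β))`. -/
theorem estermann : ∃ c C : ℝ, 0 < c ∧ 0 < C ∧ ∀ (a : ℕ → ℂ) (g : ℂ → ℂ) (U β : ℝ),
    0 ≤ a → a 1 = 1 → (∀ s : ℂ, 1 < s.re → LSeriesSummable a s) →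
    DifferentiableOn ℂ g {s | 0 < s.re} →
    (∀ s : ℂ, 1 < s.re → LSeries a s = riemannZeta s * g s) →
    2 ≤ U → (∀ s : ℂ, ‖s - 2‖ ≤ 3 / 2 → ‖g s‖ ≤ U) → 7 / 8 ≤ β → β < 1 →
    (riemannZeta β * g β).re ≤ 0 → c * (1 - β) * U ^ (-(C * (1 - β))) ≤ (g 1).re := by
  have hsub : Metric.closedBall (2 : ℂ) (3 / 2) ⊆ {s | 0 < s.re} := by
    intro s hs
    rw [mem_closedBall_iff_norm] at hs
    have h1 := (abs_re_le_norm (s - 2)).trans hs
    simp only [sub_re, re_ofNat] at h1
    have := neg_le_of_abs_le h1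
    show 0 < s.re
    linarith
  have hop : IsOpen {s : ℂ | 0 < s.re} := isOpen_lt continuous_const continuous_re
  obtain ⟨B, hB⟩ := (isCompact_closedBall (2 : ℂ) (3 / 2)).exists_bound_of_continuousOn
    (Z0_diff.continuousOn.mono hsub)
  have hB0 : 0 ≤ B := (norm_nonneg _).trans (hB 2 (by simp; norm_num))
  have hl : 0 < Real.log (4 / 3) := Real.log_pos (by norm_num)
  have hlB : 0 ≤ Real.log (8 * (B + 4)) := Real.log_nonneg (by linarith)
  refine ⟨1 / (2 * Real.exp (2 + Real.log (8 * (B + 4)) / Real.log (4 / 3))), 1 / Real.log (4 / 3),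
    by positivity, by positivity, fun a g U β ha ha1 hsum hg hL hU hgU hβ hβ1 hneg => ?_⟩
  set h : ℂ → ℂ := fun s => Z0 s * g s + dslope g 1 s with hh
  have h1mem : {s : ℂ | 0 < s.re} ∈ nhds (1 : ℂ) := hop.mem_nhds (by simp)
  have hd : DifferentiableOn ℂ h {s | 0 < s.re} :=
    (Z0_diff.mul hg).add ((differentiableOn_dslope h1mem).2 hg)
  have he : ∀ s : ℂ, 0 < s.re → s ≠ 1 → h s = riemannZeta s * g s - g 1 * (s - 1)⁻¹ := by
    intro s hs hs1
    simp only [hh, dslope_of_ne _ hs1, slope_def_field, zeta_eq_Z0 hs hs1]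
    ring
  have hU0 : 0 < U := by linarith
  have hbd : ∀ s ∈ Metric.sphere (2 : ℂ) (3 / 2), ‖h s‖ ≤ (B + 4) * U := by
    intro s hs
    have hs' := Metric.sphere_subset_closedBall hs
    rw [mem_sphere_iff_norm] at hs
    have h2 : 1 / 2 ≤ ‖s - 1‖ := by
      have := norm_sub_le (s - 1) 1
      rw [show s - 1 - 1 = s - 2 by ring, hs, norm_one] at this
      linarith
    have hs1 : s ≠ 1 := by
      rintro rfl
      simp at h2
      linarith
    have h3 : ‖dslope g 1 s‖ ≤ 4 * U := by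
      rw [dslope_of_ne _ hs1, slope_def_field, norm_div, div_le_iff₀ (by linarith)]
      have h4 := norm_sub_le (g s) (g 1)
      have h5 := hgU s hs.le
      have h6 := hgU 1 (by rw [show (1 : ℂ) - 2 = -1 by norm_num]; simp; norm_num)
      nlinarith
    have h7 : ‖Z0 s * g s‖ ≤ B * U := by
      rw [norm_mul]
      exact mul_le_mul (hB s hs') (hgU s hs.le) (norm_nonneg _) hB0
    calc ‖h s‖ ≤ _ := norm_add_le _ _
      _ ≤ B * U + 4 * U := add_le_add h7 h3
      _ = _ := by ring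
  have hdc : DiffContOnCl ℂ h (Metric.ball 2 (3 / 2)) := by
    refine DifferentiableOn.diffContOnCl ?_
    rw [closure_ball _ (by norm_num)]
    exact hd.mono hsub
  have hcau := fun m => norm_iteratedDeriv_le_of_forall_mem_sphere_norm_le m (by norm_num) hdc hbd
  -- the Taylor coefficients
  have habs : LSeries.abscissaOfAbsConv a < (2 : ℝ) := by
    have : LSeries.abscissaOfAbsConv a ≤ (1 : ℝ) :=
      LSeries.abscissaOfAbsConv_le_of_forall_lt_LSeriesSummable fun y hy => hsum y (by simpa)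
    exact this.trans_lt (by exact_mod_cast one_lt_two)
  have hev : LSeries a =ᶠ[nhds 2] fun s => h s + g 1 * (s - 1)⁻¹ := by
    have : {s : ℂ | 1 < s.re} ∈ nhds (2 : ℂ) :=
      (isOpen_lt continuous_const continuous_re).mem_nhds (by simp)
    filter_upwards [this] with s hs
    have hs1 : s ≠ 1 := by
      rintro rfl
      simp at hs
    rw [he s (lt_trans one_pos hs) hs1, hL s hs]
    ring
  have hco : ∀ m, iteratedDeriv m (LSeries a) 2 =
      iteratedDeriv m h 2 + g 1 * ((-1) ^ m * m.factorial) := by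
    intro m
    have c1 : ContDiffAt ℂ m h 2 := (hd.analyticAt (hop.mem_nhds (by simp))).contDiffAt
    have c2 : ContDiffAt ℂ m (fun s : ℂ => (s - 1)⁻¹) 2 :=
      (contDiffAt_id.sub contDiffAt_const).inv (by norm_num)
    rw [hev.iteratedDeriv_eq, iteratedDeriv_fun_add c1 (contDiffAt_const.mul c2),
      iteratedDeriv_const_mul _ c2, estermann_inv]
  set r : ℕ → ℝ := fun m => ((-1) ^ m * iteratedDeriv m h 2 / m.factorial).re with hr
  have hfac : ∀ m : ℕ, (m.factorial : ℂ) ≠ 0 := fun m => by exact_mod_cast m.factorial_ne_zero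
  have hr1 : ∀ m, r m = ((-1) ^ m * iteratedDeriv m (LSeries a) 2).re / m.factorial - (g 1).re := by
    intro m
    have h1 : ((-1 : ℂ) ^ m) * (-1) ^ m = 1 := by rw [← mul_pow]; simp
    have : (-1) ^ m * iteratedDeriv m h 2 / m.factorial =
        (-1) ^ m * iteratedDeriv m (LSeries a) 2 / m.factorial - g 1 := by
      have := hfac m
      rw [hco]
      field_simp
      linear_combination (-(g 1 * m.factorial)) * h1
    simp only [hr]
    rw [this, sub_re, div_natCast_re]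
  have hr2 : ∀ m, -(g 1).re ≤ r m := by
    intro m
    have h1 := (Complex.nonneg_iff.1 (LSeries.iteratedDeriv_alternating ha habs m)).1
    have h2 : 0 ≤ ((-1) ^ m * iteratedDeriv m (LSeries a) 2).re / m.factorial :=
      div_nonneg (by simpa using h1) (by positivity)
    rw [hr1]
    linarith
  have hr0 : 1 - (g 1).re ≤ r 0 := by
    have h1 := (Complex.le_def.1 (estermann_one_le ha ha1 (hsum 2 (by simp)))).1
    rw [hr1]
    simpa using h1
  have hr3 : ∀ m, |r m| ≤ (B + 4) * U * (2 / 3) ^ m := by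
    intro m
    refine (abs_re_le_norm _).trans ?_
    have hf : (0 : ℝ) < m.factorial := by exact_mod_cast m.factorial_pos
    rw [norm_div, norm_mul, norm_pow, norm_neg, norm_one, one_pow, one_mul, Complex.norm_natCast,
      div_le_iff₀ hf]
    refine (hcau m).trans (le_of_eq ?_)
    rw [show (2 / 3 : ℝ) = (3 / 2)⁻¹ by norm_num, inv_pow]
    ring
  have hβb : (β : ℂ) ∈ Metric.ball (2 : ℂ) (3 / 2) := by
    rw [mem_ball_iff_norm, show (β : ℂ) - 2 = ((β - 2 : ℝ) : ℂ) by push_cast; ring, norm_real,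
      Real.norm_eq_abs, abs_lt]
    constructor <;> linarith
  have hT := hasSum_re (hasSum_taylorSeries_on_ball
    (hd.mono (Metric.ball_subset_closedBall.trans hsub)) hβb)
  have hT' : HasSum (fun m => r m * (2 - β) ^ m) (h β).re := by
    convert hT using 2 with m
    have : (m.factorial : ℂ)⁻¹ • ((β : ℂ) - 2) ^ m • iteratedDeriv m h 2 =
        (-1) ^ m * iteratedDeriv m h 2 / m.factorial * (((2 - β) ^ m : ℝ) : ℂ) := by
      rw [show (β : ℂ) - 2 = (-1) * (2 - β) by ring, mul_pow]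
      push_cast
      simp only [smul_eq_mul]
      ring
    rw [this, re_mul_ofReal]
  have hS : (h β).re ≤ (g 1).re / (2 - β - 1) := by
    have hb1 : (β : ℂ) ≠ 1 := by exact_mod_cast hβ1.ne
    rw [he β (by simp; linarith) hb1, sub_re]
    have : g 1 * ((β : ℂ) - 1)⁻¹ = -(g 1 / ((2 - β - 1 : ℝ) : ℂ)) := by
      push_cast
      rw [show (2 : ℂ) - β - 1 = -(β - 1) by ring, div_neg, neg_neg, div_eq_mul_inv]
    rw [this, neg_re, div_ofReal_re]
    linarith
  set M := ⌈Real.log (8 * ((B + 4) * U)) / Real.log (4 / 3)⌉₊ with hM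
  have hK : 1 ≤ 8 * ((B + 4) * U) := by nlinarith
  have hM1 : Real.log (8 * ((B + 4) * U)) ≤ M * Real.log (4 / 3) :=
    (div_le_iff₀ hl).1 (Nat.le_ceil _)
  have hM2 : (M : ℝ) ≤ Real.log (8 * ((B + 4) * U)) / Real.log (4 / 3) + 1 :=
    (Nat.ceil_lt_add_one (div_nonneg (Real.log_nonneg hK) hl.le)).le
  have hM3 : 4 * ((B + 4) * U) * (3 / 4) ^ (M + 1) ≤ 1 / 2 := by
    have h1 : 8 * ((B + 4) * U) ≤ (4 / 3) ^ M := by
      rw [← Real.log_pow] at hM1
      exact (Real.log_le_log_iff (by linarith) (by positivity)).1 hM1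
    have h2 : (4 / 3 : ℝ) ^ M * (3 / 4) ^ M = 1 := by rw [← mul_pow]; norm_num
    have h3 : (0 : ℝ) < (3 / 4) ^ M := by positivity
    rw [pow_succ]
    nlinarith [mul_le_mul_of_nonneg_right h1 h3.le]
  have hmain := estermann_real hT' (by linarith) (by linarith) hr2 hr0 hr3 hS M hM3
  have hx : (2 - β) ^ (M + 1) ≤ Real.exp (2 + Real.log (8 * (B + 4)) / Real.log (4 / 3)) *
      U ^ (1 / Real.log (4 / 3) * (1 - β)) := by
    have h1 : 2 - β ≤ Real.exp (1 - β) := by linarith [Real.add_one_le_exp (1 - β)]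
    refine (pow_le_pow_left₀ (by linarith) h1 _).trans ?_
    rw [← Real.exp_nat_mul, Real.rpow_def_of_pos hU0, ← Real.exp_add, Real.exp_le_exp]
    rw [← mul_assoc, Real.log_mul (by positivity) hU0.ne', add_div] at hM2
    have h2 : 0 ≤ Real.log (8 * (B + 4)) / Real.log (4 / 3) := div_nonneg hlB hl.le
    have h3 : ((M + 1 : ℕ) : ℝ) * (1 - β) ≤ (2 + Real.log (8 * (B + 4)) / Real.log (4 / 3) +
        Real.log U / Real.log (4 / 3)) * (1 - β) :=
      mul_le_mul_of_nonneg_right (by push_cast; linarith) (by linarith)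
    have h4 : (2 + Real.log (8 * (B + 4)) / Real.log (4 / 3)) * (1 - β) ≤
        2 + Real.log (8 * (B + 4)) / Real.log (4 / 3) :=
      mul_le_of_le_one_right (by linarith) (by linarith)
    have h5 : Real.log U * (1 / Real.log (4 / 3) * (1 - β)) =
        Real.log U / Real.log (4 / 3) * (1 - β) := by ring
    rw [h5]
    linarith
  have hpos : 0 < (g 1).re := by
    by_contra hn
    push Not at hn
    have := mul_nonpos_of_nonpos_of_nonneg hn (pow_nonneg (by linarith : 0 ≤ 2 - β) (M + 1))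
    linarith
  have hfin := hmain.trans (mul_le_mul_of_nonneg_left hx hpos.le)
  have hP : 0 < U ^ (1 / Real.log (4 / 3) * (1 - β)) := Real.rpow_pos_of_pos hU0 _
  rw [Real.rpow_neg hU0.le, ← div_eq_mul_inv, div_le_iff₀ hP, one_div_mul_eq_div,
    div_le_iff₀ (by positivity)]
  linarith

end Crest.Agent.SW
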