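import Crest.Agent.Lib.SW.Siegel

/-!
# SW / LowerA: the lower bound for `L(s,χ)` on `1 < re s ≤ 2`
-/

set_option autoImplicit false

namespace Crest.Agent.SW

open Finset Complex DirichletCharacter

/-- the de la Vallée-Poussin step in abstract form -/
theorem lowerA_core {g : ℝ → ℂ} {M V x : ℝ} (hM : 1 ≤ M) (hV : 1 ≤ V) (hx : 0 < x) (hx1 : x ≤ 1)
    (hlip : ∀ y, x ≤ y → y ≤ 1 → ‖g y - g x‖ ≤ M * (y - x))
    (hprod : ∀ y, x ≤ y → y ≤ 1 → 1 ≤ (M / y) ^ 3 * ‖g y‖ ^ 4 * V) :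
    1 / (16 * M ^ 6 * V) ≤ ‖g x‖ := by
  have hM0 : 0 < M := by linarith
  have hV0 : 0 < V := by linarith
  obtain ⟨η, hη⟩ : ∃ η : ℝ, η = 1 / (16 * M ^ 7 * V) := ⟨_, rfl⟩
  have hη0 : 0 < η := by rw [hη]; positivity
  have hη1 : η ≤ 1 := by
    rw [hη, div_le_one (by positivity)]
    have : 1 ≤ M ^ 7 := one_le_pow₀ hM
    nlinarith
  have hηM : η * M = 1 / (16 * M ^ 6 * V) := by rw [hη]; field_simp
  have key : ∀ y, x ≤ y → η ≤ y → y ≤ 1 → 2 * (η * M) ≤ ‖g y‖ := by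
    intro y h1 h2 h3
    have hy0 : 0 < y := by linarith
    have h4 := hprod y h1 h3
    have h5 : (M / y) ^ 3 ≤ (M / η) ^ 3 := by gcongr
    have h6 : 1 ≤ (M / η) ^ 3 * ‖g y‖ ^ 4 * V := h4.trans (by gcongr)
    have h7 : (2 * (η * M)) ^ 4 * ((M / η) ^ 3 * V) = 1 := by
      have : (2 * (η * M)) ^ 4 * ((M / η) ^ 3 * V) = η * (16 * M ^ 7 * V) := by field_simp; ring
      rw [this, hη]; field_simp
    have h8 : (2 * (η * M)) ^ 4 ≤ ‖g y‖ ^ 4 := by
      have hp : 0 < (M / η) ^ 3 * V := by positivity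
      refine le_of_mul_le_mul_right ?_ hp
      rw [h7]; linarith
    exact (pow_le_pow_iff_left₀ (by positivity) (norm_nonneg _) (by norm_num)).mp h8
  rw [← hηM]
  have hp : 0 < η * M := by positivity
  rcases le_total η x with h | h
  · have := key x le_rfl h hx1
    linarith
  · have h1 := key η h le_rfl hη1
    have h2 := hlip η h hη1
    have h3 : ‖g η‖ ≤ ‖g x‖ + ‖g η - g x‖ := norm_le_norm_add_norm_sub' _ _
    nlinarith

/-- Lipschitz bound from Cauchy's estimate -/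
theorem lowerA_lip (δ : ℝ) (hδ : 0 < δ) (hδ1 : δ ≤ 1 / 2) : ∃ C : ℝ, 0 < C ∧
    ∀ (q : ℕ) [NeZero q] (χ : DirichletCharacter ℂ q), χ ≠ 1 → ∀ (t : ℝ) (s₁ s₂ : ℂ),
      1 ≤ s₁.re → s₁.re ≤ 2 → |s₁.im| ≤ |t| → 1 ≤ s₂.re → s₂.re ≤ 2 → |s₂.im| ≤ |t| →
      ‖LFunction χ s₂ - LFunction χ s₁‖ ≤ C * ((q : ℝ) * (|t| + 2)) ^ δ * ‖s₂ - s₁‖ := by
  obtain ⟨C, hC, hb⟩ := LFunction_bound δ hδ hδ1
  refine ⟨2 * C / δ, by positivity, fun q _ χ hχ t s₁ s₂ a1 a2 a3 b1 b2 b3 => ?_⟩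
  have hd := differentiable_LFunction hχ
  have hq : (0 : ℝ) ≤ q := Nat.cast_nonneg q
  have hconv : Convex ℝ {s : ℂ | 1 ≤ s.re ∧ s.re ≤ 2 ∧ -|t| ≤ s.im ∧ s.im ≤ |t|} :=
    (convex_halfSpace_re_ge 1).inter ((convex_halfSpace_re_le 2).inter
      ((convex_halfSpace_im_ge _).inter (convex_halfSpace_im_le _)))
  refine hconv.norm_image_sub_le_of_norm_deriv_le (fun s _ => hd s) ?_
    ⟨a1, a2, (abs_le.mp a3).1, (abs_le.mp a3).2⟩ ⟨b1, b2, (abs_le.mp b3).1, (abs_le.mp b3).2⟩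
  rintro s ⟨c1, c2, c3, c4⟩
  have h := Complex.norm_deriv_le_of_forall_mem_sphere_norm_le (c := s) (R := δ)
    (C := 2 * C * ((q : ℝ) * (|t| + 2)) ^ δ) hδ hd.diffContOnCl ?_
  · refine h.trans (le_of_eq ?_)
    ring
  · intro z hz
    have hz' : ‖z - s‖ = δ := mem_sphere_iff_norm.mp hz
    have hre : |z.re - s.re| ≤ δ := by
      rw [← hz', ← Complex.sub_re]; exact Complex.abs_re_le_norm _
    have him : |z.im - s.im| ≤ δ := by
      rw [← hz', ← Complex.sub_im]; exact Complex.abs_im_le_norm _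
    have hre' := abs_le.mp hre
    have him' := abs_le.mp him
    have ht := abs_nonneg t
    have hzi : |z.im| + 2 ≤ 2 * (|t| + 2) := by
      have : |z.im| ≤ |t| + 1 := abs_le.mpr ⟨by linarith [him'.1], by linarith [him'.2]⟩
      linarith
    refine (hb q χ hχ z (by linarith [hre'.1]) (by linarith [hre'.2])).trans ?_
    have h2 : (2 : ℝ) ^ δ ≤ 2 := by
      calc (2 : ℝ) ^ δ ≤ 2 ^ (1 : ℝ) := Real.rpow_le_rpow_of_exponent_le (by norm_num) (by linarith)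
        _ = 2 := Real.rpow_one 2
    calc C * ((q : ℝ) * (|z.im| + 2)) ^ δ ≤ C * (2 * ((q : ℝ) * (|t| + 2))) ^ δ := by
          refine mul_le_mul_of_nonneg_left (Real.rpow_le_rpow (by positivity) ?_ hδ.le) hC.le
          nlinarith
      _ = C * (2 ^ δ * ((q : ℝ) * (|t| + 2)) ^ δ) := by
          rw [Real.mul_rpow (by norm_num) (by positivity)]
      _ ≤ C * (2 * ((q : ℝ) * (|t| + 2)) ^ δ) := by gcongr
      _ = 2 * C * ((q : ℝ) * (|t| + 2)) ^ δ := by ring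

theorem lowerA_two {δ q t : ℝ} (hδ : 0 < δ) (hδ1 : δ ≤ 1 / 2) (hq : 0 ≤ q) :
    (q * (|2 * t| + 2)) ^ δ ≤ 2 * (q * (|t| + 2)) ^ δ := by
  have h2 : (2 : ℝ) ^ δ ≤ 2 := by
    calc (2 : ℝ) ^ δ ≤ 2 ^ (1 : ℝ) := Real.rpow_le_rpow_of_exponent_le (by norm_num) (by linarith)
      _ = 2 := Real.rpow_one 2
  have ht := abs_nonneg t
  calc (q * (|2 * t| + 2)) ^ δ ≤ (2 * (q * (|t| + 2))) ^ δ := by
        refine Real.rpow_le_rpow (by positivity) ?_ hδ.le
        rw [abs_mul, abs_two]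
        nlinarith
    _ = 2 ^ δ * (q * (|t| + 2)) ^ δ := by
        rw [Real.mul_rpow (by norm_num) (by positivity)]
    _ ≤ 2 * (q * (|t| + 2)) ^ δ := by gcongr

theorem LFunction_lowerA (ε : ℝ) (hε : 0 < ε) : ∃ c : ℝ, 0 < c ∧
    ∀ (q : ℕ) [NeZero q] (χ : DirichletCharacter ℂ q), χ ≠ 1 →
      ∀ s : ℂ, 1 < s.re → s.re ≤ 2 → c * ((q : ℝ) * (|s.im| + 2)) ^ (-ε) ≤ ‖LFunction χ s‖ := by
  obtain ⟨δ, hδ, hδ1, hδε⟩ : ∃ δ : ℝ, 0 < δ ∧ δ ≤ 1 / 2 ∧ 8 * δ ≤ ε :=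
    ⟨min (ε / 8) (1 / 2), by positivity, min_le_right _ _, by linarith [min_le_left (ε / 8) (1 / 2)]⟩
  obtain ⟨C1, hC1, hlip⟩ := lowerA_lip δ hδ hδ1
  obtain ⟨C2, hC2, hb⟩ := LFunction_bound δ hδ hδ1
  obtain ⟨C3, hC3, hb'⟩ := LFunction_bound' δ hδ hδ1
  obtain ⟨c4, hc4, hsg⟩ := siegel δ hδ
  obtain ⟨K, hK⟩ : ∃ K : ℝ, K = 1 + C1 + 2 * C2 + 2 * C3 + 1 / c4 := ⟨_, rfl⟩
  have hc4' : 0 < 1 / c4 := by positivity
  have hK1 : 1 ≤ K := by linarith
  refine ⟨1 / (80 * K ^ 8), by positivity, fun q _ χ hχ s hs1 hs2 => ?_⟩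
  have hq1 : (1 : ℝ) ≤ q := Nat.one_le_cast.mpr (Nat.pos_of_ne_zero (NeZero.ne q))
  obtain ⟨t, ht⟩ : ∃ t, t = s.im := ⟨_, rfl⟩
  obtain ⟨x, hx⟩ : ∃ x, x = s.re - 1 := ⟨_, rfl⟩
  have hs : s = 1 + x + I * t := by
    apply Complex.ext <;> simp [hx, ht]
  have hx0 : 0 < x := by linarith
  have hx1 : x ≤ 1 := by linarith
  rw [← ht]
  have hta := abs_nonneg t
  obtain ⟨P, hP⟩ : ∃ P : ℝ, P = (q : ℝ) * (|t| + 2) := ⟨_, rfl⟩
  have hPq : (q : ℝ) * 2 ≤ P := by rw [hP]; nlinarith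
  have hP1 : 1 ≤ P := by linarith
  obtain ⟨Q, hQ⟩ : ∃ Q : ℝ, Q = P ^ δ := ⟨_, rfl⟩
  have hQ1 : 1 ≤ Q := by rw [hQ]; exact Real.one_le_rpow hP1 hδ.le
  obtain ⟨M, hM⟩ : ∃ M : ℝ, M = K * Q := ⟨_, rfl⟩
  have hM1 : 1 ≤ M := by rw [hM]; nlinarith
  have hM0 : 0 < M := by linarith
  -- reduction
  have hred : 1 / (80 * K ^ 8) * ((q : ℝ) * (|t| + 2)) ^ (-ε) ≤ 1 / (80 * M ^ 8) := by
    rw [← hP]
    have h1 : P ^ (-ε) ≤ P ^ (-(δ * 8)) := Real.rpow_le_rpow_of_exponent_le hP1 (by linarith)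
    have h2 : P ^ (-(δ * 8)) = 1 / Q ^ 8 := by
      rw [Real.rpow_neg (by linarith), Real.rpow_mul (by linarith), ← hQ, one_div]
      norm_num
    calc 1 / (80 * K ^ 8) * P ^ (-ε) ≤ 1 / (80 * K ^ 8) * (1 / Q ^ 8) := by
          rw [← h2]; gcongr
      _ = 1 / (80 * M ^ 8) := by rw [hM]; field_simp
  refine hred.trans ?_
  have hre : ∀ y u : ℝ, ((1 : ℂ) + y + I * u).re = 1 + y := fun y u => by simp
  have him : ∀ y u : ℝ, ((1 : ℂ) + y + I * u).im = u := fun y u => by simp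
  -- Lipschitz
  have hL : ∀ s₁ s₂ : ℂ, 1 ≤ s₁.re → s₁.re ≤ 2 → |s₁.im| ≤ |t| → 1 ≤ s₂.re → s₂.re ≤ 2 →
      |s₂.im| ≤ |t| → ‖LFunction χ s₂ - LFunction χ s₁‖ ≤ M * ‖s₂ - s₁‖ := by
    intro s₁ s₂ a1 a2 a3 b1 b2 b3
    refine (hlip q χ hχ t s₁ s₂ a1 a2 a3 b1 b2 b3).trans ?_
    rw [← hP, ← hQ, hM]
    gcongr
    linarith
  -- the main step
  have hmain : ∀ V : ℝ, 1 ≤ V →
      (∀ y : ℝ, x ≤ y → y ≤ 1 → ‖LFunction (χ ^ 2) (1 + y + 2 * I * t)‖ ≤ V) →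
      1 / (16 * M ^ 6 * V) ≤ ‖LFunction χ s‖ := by
    intro V hV hVb
    rw [hs]
    refine lowerA_core (g := fun y : ℝ => LFunction χ (1 + y + I * t)) hM1 hV hx0 hx1 ?_ ?_
    · intro y h1 h2
      have := hL (1 + x + I * t) (1 + y + I * t) (by rw [hre]; linarith) (by rw [hre]; linarith)
        (by rw [him]) (by rw [hre]; linarith) (by rw [hre]; linarith) (by rw [him])
      refine this.trans (le_of_eq ?_)
      have e : (1 : ℂ) + y + I * t - (1 + x + I * t) = ((y - x : ℝ) : ℂ) := by push_cast; ring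
      rw [e, Complex.norm_real, Real.norm_of_nonneg (by linarith)]
    · intro y h1 h2
      have hy0 : 0 < y := by linarith
      have h3 := χ.norm_LFunction_product_ge_one hy0 t
      rw [ge_iff_le, norm_mul, norm_mul, norm_pow, norm_pow] at h3
      have h4 : ‖LFunctionTrivChar q (1 + y)‖ ≤ M / y := by
        have h5 := hb' q 1 (1 + y) (by simp [hy0]) (by simp; linarith)
        have e1 : ‖(1 : ℂ) + y - 1‖ = y := by
          rw [add_sub_cancel_left, Complex.norm_real, Real.norm_of_nonneg hy0.le]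
        have e2 : ((1 : ℂ) + y).im = 0 := by simp
        rw [e1, e2, abs_zero, zero_add] at h5
        have h6 : ((q : ℝ) * 2) ^ δ ≤ Q := by
          rw [hQ]; gcongr
        refine h5.trans ?_
        rw [le_div_iff₀ hy0, add_mul, one_div, inv_mul_cancel₀ hy0.ne', hM]
        have h7 : C3 * ((q : ℝ) * 2) ^ δ * y ≤ C3 * Q * 1 := by gcongr
        have h8 : (1 + C3) * Q ≤ K * Q := by gcongr; linarith
        nlinarith
      refine h3.trans ?_
      have := hVb y h1 h2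
      gcongr
  have hre2 : ∀ y : ℝ, ((1 : ℂ) + y + 2 * I * t).re = 1 + y := fun y => by simp
  have him2 : ∀ y : ℝ, ((1 : ℂ) + y + 2 * I * t).im = 2 * t := fun y => by simp
  have htwo : ((q : ℝ) * (|2 * t| + 2)) ^ δ ≤ 2 * Q := by
    rw [hQ, hP]; exact lowerA_two hδ hδ1 (by linarith)
  by_cases h2 : χ ^ 2 = 1
  · have hone : 1 / M ≤ ‖LFunction χ 1‖ := by
      refine le_trans ?_ (hsg q χ hχ h2)
      have h3 : (q : ℝ) ^ δ ≤ Q := by
        rw [hQ]; gcongr; linarith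
      have h4 : 0 < (q : ℝ) ^ δ := by positivity
      rw [Real.rpow_neg (by linarith), ← div_eq_mul_inv, div_le_div_iff₀ hM0 h4, hM, one_mul,
        ← mul_assoc]
      have h5 : 1 ≤ c4 * K := by
        have : c4 * (1 / c4) ≤ c4 * K := by gcongr; linarith
        rwa [mul_one_div_cancel hc4.ne'] at this
      nlinarith
    obtain ⟨τ, hτ⟩ : ∃ τ : ℝ, τ = 1 / (4 * M ^ 2) := ⟨_, rfl⟩
    have hτ0 : 0 < τ := by rw [hτ]; positivity
    by_cases h3 : x ≤ τ ∧ |t| ≤ τ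
    · have h4 := hL 1 s (by simp) (by simp) (by simp) hs1.le hs2 (by rw [ht])
      have h5 : ‖s - 1‖ ≤ 2 * τ := by
        refine (Complex.norm_le_abs_re_add_abs_im _).trans ?_
        rw [Complex.sub_re, Complex.sub_im, Complex.one_re, Complex.one_im, sub_zero, ← hx, ← ht,
          abs_of_pos hx0]
        linarith [h3.1, h3.2]
      have h6 : M * ‖s - 1‖ ≤ 1 / (2 * M) := by
        calc M * ‖s - 1‖ ≤ M * (2 * τ) := by gcongr
          _ = 1 / (2 * M) := by rw [hτ]; field_simp; ring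
      have h7 : ‖LFunction χ 1‖ ≤ ‖LFunction χ s‖ + ‖LFunction χ s - LFunction χ 1‖ := by
        rw [norm_sub_rev]; exact norm_le_norm_add_norm_sub' _ _
      have h8 : 1 / M = 1 / (2 * M) + 1 / (2 * M) := by field_simp; ring
      have h9 : 1 / (80 * M ^ 8) ≤ 1 / (2 * M) := by
        have : M ^ 1 ≤ M ^ 8 := pow_le_pow_right₀ hM1 (by norm_num)
        gcongr
        · norm_num
        · simpa using this
      linarith
    · have hM2 : M ≤ M ^ 2 := by nlinarith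
      have := hmain (5 * M ^ 2) (by nlinarith) fun y h4 h5 => by
        have h6 := hb' q (χ ^ 2) (1 + y + 2 * I * t) (by rw [hre2]; linarith) (by rw [hre2]; linarith)
        rw [him2] at h6
        have h7 : τ ≤ ‖(1 : ℂ) + y + 2 * I * t - 1‖ := by
          rcases not_and_or.mp h3 with h | h
          · refine le_trans ?_ (Complex.abs_re_le_norm _)
            rw [Complex.sub_re, hre2, Complex.one_re, add_sub_cancel_left]
            exact le_trans (by linarith [not_le.mp h]) (le_abs_self y)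
          · refine le_trans ?_ (Complex.abs_im_le_norm _)
            rw [Complex.sub_im, him2, Complex.one_im, sub_zero, abs_mul, abs_two]
            linarith [not_le.mp h]
        have h8 : 1 / ‖(1 : ℂ) + y + 2 * I * t - 1‖ ≤ 4 * M ^ 2 := by
          calc 1 / ‖(1 : ℂ) + y + 2 * I * t - 1‖ ≤ 1 / τ := by gcongr
            _ = 4 * M ^ 2 := by rw [hτ, one_div_one_div]
        have h9 : C3 * ((q : ℝ) * (|2 * t| + 2)) ^ δ ≤ M := by
          calc C3 * ((q : ℝ) * (|2 * t| + 2)) ^ δ ≤ C3 * (2 * Q) := by gcongr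
            _ = (2 * C3) * Q := by ring
            _ ≤ K * Q := by gcongr; linarith
            _ = M := hM.symm
        linarith
      refine le_trans (le_of_eq ?_) this
      congr 1; ring
  · have := hmain M hM1 fun y h4 h5 => by
      have h6 := hb q (χ ^ 2) h2 (1 + y + 2 * I * t) (by rw [hre2]; linarith) (by rw [hre2]; linarith)
      rw [him2] at h6
      refine h6.trans ?_
      calc C2 * ((q : ℝ) * (|2 * t| + 2)) ^ δ ≤ C2 * (2 * Q) := by gcongr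
        _ = (2 * C2) * Q := by ring
        _ ≤ K * Q := by gcongr; linarith
        _ = M := hM.symm
    refine le_trans ?_ this
    have h7 : M ^ 7 ≤ M ^ 8 := pow_le_pow_right₀ hM1 (by norm_num)
    have h8 : 0 < M ^ 7 := by positivity
    have e : 16 * M ^ 6 * M = 16 * M ^ 7 := by ring
    rw [e]
    gcongr
    norm_num

end Crest.Agent.SW
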