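import Crest.Agent.Lib.SW.Cont

/-!
# SW / LowerB: the lower bound for `ζ(s)(s-1)/s` on `1 < re s ≤ 2`
-/

set_option autoImplicit false

namespace Crest.Agent.SW

open Finset Complex DirichletCharacter

theorem lowB_product {x : ℝ} (hx : 0 < x) (y : ℝ) :
    1 ≤ ‖riemannZeta (1 + x)‖ ^ 3 * ‖riemannZeta (1 + x + I * y)‖ ^ 4 *
      ‖riemannZeta (1 + x + 2 * I * y)‖ := by
  have h := norm_LFunction_product_ge_one (N := 1) (1 : DirichletCharacter ℂ 1) hx y
  simp only [LFunctionTrivChar, LFunction_modOne_eq, norm_mul, norm_pow] at h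
  exact h

/-- upper bound for `ζ` from the bound on `Z0` -/
theorem lowB_zeta_le {C e : ℝ} (he1 : e ≤ 1 / 2)
    (hC : ∀ s : ℂ, 1 - e ≤ s.re → s.re ≤ 4 → ‖Z0 s‖ ≤ C * (|s.im| + 2) ^ e)
    {s : ℂ} (h1 : 1 - e ≤ s.re) (h4 : s.re ≤ 4) (hs : s ≠ 1) :
    ‖riemannZeta s‖ ≤ 1 / ‖s - 1‖ + C * (|s.im| + 2) ^ e := by
  rw [zeta_eq_Z0 (by linarith) hs]
  refine (norm_add_le _ _).trans (add_le_add ?_ (hC s h1 h4))
  rw [norm_div, norm_one]

theorem lowB_rpow_two_mul {P R e : ℝ} (he : 0 < e) (he1 : e ≤ 1 / 2) (hP : 0 ≤ P) (hR0 : 0 ≤ R)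
    (hR : R ≤ 2 * P) : R ^ e ≤ 2 * P ^ e := by
  calc R ^ e ≤ (2 * P) ^ e := Real.rpow_le_rpow hR0 hR he.le
    _ = 2 ^ e * P ^ e := Real.mul_rpow (by norm_num) hP
    _ ≤ 2 * P ^ e := by
        refine mul_le_mul_of_nonneg_right ?_ (Real.rpow_nonneg hP _)
        calc (2 : ℝ) ^ e ≤ 2 ^ (1 : ℝ) :=
              Real.rpow_le_rpow_of_exponent_le (by norm_num) (by linarith)
          _ = 2 := Real.rpow_one 2

/-- the consequence of the `3, 4, 1` inequality -/
theorem lowB_fourth {C e : ℝ} (hC0 : 0 < C) (he : 0 < e) (he1 : e ≤ 1 / 2)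
    (hC : ∀ s : ℂ, 1 - e ≤ s.re → s.re ≤ 4 → ‖Z0 s‖ ≤ C * (|s.im| + 2) ^ e)
    {x y : ℝ} (hx : 0 < x) (hx1 : x ≤ 1) (hy : 1 ≤ |y|) :
    x ^ 3 ≤ (1 + 2 * C) ^ 4 * (|y| + 2) ^ e * ‖riemannZeta (1 + x + I * y)‖ ^ 4 := by
  have hQ : 1 ≤ (|y| + 2) ^ e := Real.one_le_rpow (by linarith) he.le
  have hA : x * ‖riemannZeta (1 + x)‖ ≤ 1 + 2 * C := by
    have hne : (1 + x : ℂ) ≠ 1 := by
      intro h
      have := congrArg Complex.re h
      simp at this
      linarith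
    have h := lowB_zeta_le he1 hC (s := 1 + x) (by simp; linarith) (by simp; linarith) hne
    have h2 : ‖(1 + x : ℂ) - 1‖ = x := by
      rw [add_sub_cancel_left, Complex.norm_real, Real.norm_eq_abs, abs_of_pos hx]
    have h3 : (|(1 + x : ℂ).im| + 2) ^ e ≤ 2 := by
      have := lowB_rpow_two_mul he he1 (P := 1) (R := |(1 + x : ℂ).im| + 2) zero_le_one
        (by positivity) (by simp)
      simpa using this
    rw [h2] at h
    have h4 : C * (|(1 + x : ℂ).im| + 2) ^ e ≤ C * 2 := mul_le_mul_of_nonneg_left h3 hC0.le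
    calc x * ‖riemannZeta (1 + x)‖ ≤ x * (1 / x + C * 2) :=
          mul_le_mul_of_nonneg_left (h.trans (by linarith)) hx.le
      _ = 1 + x * (C * 2) := by field_simp
      _ ≤ 1 + 2 * C := by nlinarith
  have hB : ‖riemannZeta (1 + x + 2 * I * y)‖ ≤ (1 + 2 * C) * (|y| + 2) ^ e := by
    have him : (1 + x + 2 * I * y : ℂ).im = 2 * y := by simp
    have hre : (1 + x + 2 * I * y : ℂ).re = 1 + x := by simp
    have hne : (1 + x + 2 * I * y : ℂ) ≠ 1 := by
      intro h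
      have := congrArg Complex.re h
      rw [hre] at this
      simp at this
      linarith
    have h := lowB_zeta_le he1 hC (s := 1 + x + 2 * I * y) (by rw [hre]; linarith)
      (by rw [hre]; linarith) hne
    have h2 : 1 ≤ ‖(1 + x + 2 * I * y : ℂ) - 1‖ := by
      refine le_trans ?_ (Complex.abs_im_le_norm _)
      rw [Complex.sub_im, him, Complex.one_im, sub_zero, abs_mul, abs_two]
      linarith
    have h3 : (|(1 + x + 2 * I * y : ℂ).im| + 2) ^ e ≤ 2 * (|y| + 2) ^ e := by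
      refine lowB_rpow_two_mul he he1 (by positivity) (by positivity) ?_
      rw [him, abs_mul, abs_two]
      linarith
    have h4 : 1 / ‖(1 + x + 2 * I * y : ℂ) - 1‖ ≤ 1 := by
      rw [div_le_one (by linarith)]
      exact h2
    have h5 := mul_le_mul_of_nonneg_left h3 hC0.le
    nlinarith
  have hprod := lowB_product hx y
  set a := ‖riemannZeta (1 + x)‖
  set b := ‖riemannZeta (1 + x + I * y)‖
  set d := ‖riemannZeta (1 + x + 2 * I * y)‖
  have ha : 0 ≤ a := norm_nonneg _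
  have hb : 0 ≤ b := norm_nonneg _
  have hd : 0 ≤ d := norm_nonneg _
  calc x ^ 3 = x ^ 3 * 1 := (mul_one _).symm
    _ ≤ x ^ 3 * (a ^ 3 * b ^ 4 * d) := mul_le_mul_of_nonneg_left hprod (by positivity)
    _ = (x * a) ^ 3 * d * b ^ 4 := by ring
    _ ≤ (1 + 2 * C) ^ 3 * ((1 + 2 * C) * (|y| + 2) ^ e) * b ^ 4 := by gcongr
    _ = (1 + 2 * C) ^ 4 * (|y| + 2) ^ e * b ^ 4 := by ring

/-- Lipschitz bound on small discs -/
theorem lowB_lip {C e : ℝ} (hC0 : 0 < C) (he : 0 < e) (he1 : e ≤ 1 / 2)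
    (hC : ∀ s : ℂ, 1 - e ≤ s.re → s.re ≤ 4 → ‖Z0 s‖ ≤ C * (|s.im| + 2) ^ e)
    {s z : ℂ} (h1 : 1 ≤ s.re) (h2 : s.re ≤ 2) (hy : 1 ≤ |s.im|) (hz : z ∈ Metric.ball s e) :
    ‖riemannZeta z - riemannZeta s‖ ≤ (4 * (1 + 2 * C) / e) * (|s.im| + 2) ^ e * ‖z - s‖ := by
  have hQ : 1 ≤ (|s.im| + 2) ^ e := Real.one_le_rpow (by linarith) he.le
  have hfar : ∀ w ∈ Metric.ball s e, 1 / 2 ≤ ‖w - 1‖ ∧ |w.im| ≤ |s.im| + 1 / 2 ∧
      1 - e ≤ w.re ∧ w.re ≤ 4 := by
    intro w hw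
    rw [Metric.mem_ball, dist_eq_norm] at hw
    have hi := (Complex.abs_im_le_norm (w - s)).trans hw.le
    have hr := (Complex.abs_re_le_norm (w - s)).trans hw.le
    rw [Complex.sub_im] at hi
    rw [Complex.sub_re] at hr
    have hi2 := abs_sub_abs_le_abs_sub w.im s.im
    have hi3 := abs_sub_abs_le_abs_sub s.im w.im
    rw [abs_sub_comm] at hi3
    refine ⟨?_, by linarith, by linarith [(abs_le.mp hr).1], by linarith [(abs_le.mp hr).2]⟩
    refine le_trans ?_ (Complex.abs_im_le_norm _)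
    rw [Complex.sub_im, Complex.one_im, sub_zero]
    linarith
  have hne : ∀ w ∈ Metric.ball s e, w ≠ 1 := by
    intro w hw h
    have := (hfar w hw).1
    rw [h, sub_self, norm_zero] at this
    linarith
  have hU : ∀ w ∈ Metric.ball s e, ‖riemannZeta w‖ ≤ 2 * (1 + 2 * C) * (|s.im| + 2) ^ e := by
    intro w hw
    obtain ⟨ha, hb, hc, hd⟩ := hfar w hw
    have h := lowB_zeta_le he1 hC hc hd (hne w hw)
    have h3 : (|w.im| + 2) ^ e ≤ 2 * (|s.im| + 2) ^ e :=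
      lowB_rpow_two_mul he he1 (by positivity) (by positivity) (by linarith)
    have h4 : 1 / ‖w - 1‖ ≤ 2 := by
      rw [div_le_iff₀ (by linarith)]
      linarith
    have h5 := mul_le_mul_of_nonneg_left h3 hC0.le
    have h6 : 0 ≤ C * (|s.im| + 2) ^ e := by positivity
    nlinarith
  have hd : DifferentiableOn ℂ riemannZeta (Metric.ball s e) := fun w hw =>
    (differentiableAt_riemannZeta (hne w hw)).differentiableWithinAt
  have hmaps : Set.MapsTo riemannZeta (Metric.ball s e)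
      (Metric.closedBall (riemannZeta s) (4 * (1 + 2 * C) * (|s.im| + 2) ^ e)) := by
    intro w hw
    rw [Metric.mem_closedBall, dist_eq_norm]
    have ha := hU w hw
    have hb := hU s (Metric.mem_ball_self he)
    have := norm_sub_le (riemannZeta w) (riemannZeta s)
    linarith
  have h := Complex.dist_le_div_mul_dist_of_mapsTo_ball hd hmaps hz
  rw [dist_eq_norm, dist_eq_norm] at h
  refine h.trans (le_of_eq ?_)
  ring

/-- lower bound for `ζ` away from the real axis -/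
theorem lowB_far {e : ℝ} (he : 0 < e) (he1 : e ≤ 1 / 2) : ∃ c : ℝ, 0 < c ∧
    ∀ s : ℂ, 1 < s.re → s.re ≤ 2 → 1 ≤ |s.im| →
      c ≤ ((|s.im| + 2) ^ e) ^ 7 * ‖riemannZeta s‖ := by
  obtain ⟨C, hC0, hC⟩ := Z0_bound e he he1
  set A : ℝ := 1 + 2 * C with hA
  set D : ℝ := 4 * A / e with hD
  have hA1 : 1 ≤ A := by linarith
  have hD0 : 0 < D := by positivity
  have hDe : D * e = 4 * A := by rw [hD]; field_simp
  refine ⟨1 / (16 * A ^ 4 * D ^ 3), by positivity, fun s h1 h2 hy => ?_⟩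
  set Q : ℝ := (|s.im| + 2) ^ e with hQdef
  have hQ : 1 ≤ Q := Real.one_le_rpow (by linarith) he.le
  set u : ℝ := 1 / (2 * A * D * Q ^ 2) with hu
  have hu0 : 0 < u := by positivity
  have huQ : u * (2 * A * D * Q ^ 2) = 1 := by rw [hu]; field_simp
  have hue : u < e := by
    rw [hu, div_lt_iff₀ (by positivity)]
    have : e * (2 * A * D * Q ^ 2) = 8 * A ^ 2 * Q ^ 2 := by
      calc e * (2 * A * D * Q ^ 2) = 2 * A * (D * e) * Q ^ 2 := by ring
        _ = 8 * A ^ 2 * Q ^ 2 := by rw [hDe]; ring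
    rw [this]
    have h3 : 1 ≤ A ^ 2 := one_le_pow₀ hA1
    have h4 : 1 ≤ Q ^ 2 := one_le_pow₀ hQ
    nlinarith
  have hu1 : u ≤ 1 := by linarith
  have hu4 : u ^ 4 ≤ u := by
    calc u ^ 4 ≤ u ^ 1 := pow_le_pow_of_le_one hu0.le hu1 (by norm_num)
      _ = u := pow_one u
  -- the bound to the right of `1 + u ^ 4`
  have hright : ∀ x : ℝ, u ^ 4 ≤ x → x ≤ 1 →
      u ^ 3 ≤ A * Q * ‖riemannZeta (1 + x + I * s.im)‖ := by
    intro x hx hx1
    have hx0 : 0 < x := lt_of_lt_of_le (by positivity) hx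
    have h := lowB_fourth hC0 he he1 hC hx0 hx1 hy
    rw [← hA, ← hQdef] at h
    set b := ‖riemannZeta (1 + x + I * s.im)‖
    have hb : 0 ≤ b := norm_nonneg _
    refine le_of_pow_le_pow_left₀ (n := 4) (by norm_num) (by positivity) ?_
    have hQ4 : Q ≤ Q ^ 4 := by
      calc Q = Q ^ 1 := (pow_one Q).symm
        _ ≤ Q ^ 4 := pow_le_pow_right₀ hQ (by norm_num)
    calc (u ^ 3) ^ 4 = (u ^ 4) ^ 3 := by ring
      _ ≤ x ^ 3 := by gcongr
      _ ≤ A ^ 4 * Q * b ^ 4 := h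
      _ ≤ A ^ 4 * Q ^ 4 * b ^ 4 := by gcongr
      _ = (A * Q * b) ^ 4 := by ring
  have hs : s = 1 + ((s.re - 1 : ℝ) : ℂ) + I * s.im := by
    apply Complex.ext <;> simp
  have hmain : u ^ 3 ≤ 2 * A * Q * ‖riemannZeta s‖ := by
    have hn : 0 ≤ A * Q * ‖riemannZeta s‖ := by positivity
    rcases le_total (u ^ 4) (s.re - 1) with hx | hx
    · have h := hright (s.re - 1) hx (by linarith)
      rw [← hs] at h
      linarith
    · have h := hright (u ^ 4) le_rfl (by linarith)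
      set z : ℂ := 1 + ((u ^ 4 : ℝ) : ℂ) + I * s.im with hz
      have hzs : ‖z - s‖ ≤ u ^ 4 := by
        have : z - s = ((u ^ 4 - (s.re - 1) : ℝ) : ℂ) := by
          apply Complex.ext
          · simp only [hz, Complex.sub_re, Complex.add_re, Complex.one_re, Complex.ofReal_re,
              Complex.mul_re, Complex.I_re, Complex.I_im, Complex.ofReal_im]
            ring
          · simp only [hz, Complex.sub_im, Complex.add_im, Complex.one_im, Complex.ofReal_re,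
              Complex.mul_im, Complex.I_re, Complex.I_im, Complex.ofReal_im]
            ring
        rw [this, Complex.norm_real, Real.norm_eq_abs, abs_of_nonneg (by linarith)]
        linarith
      have hzb : z ∈ Metric.ball s e := by
        rw [Metric.mem_ball, dist_eq_norm]
        linarith
      have hl := lowB_lip hC0 he he1 hC h1.le h2 hy hzb
      rw [← hA, ← hD, ← hQdef] at hl
      have h3 : ‖riemannZeta z‖ ≤ ‖riemannZeta s‖ + D * Q * u ^ 4 := by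
        have h4 := norm_le_norm_add_norm_sub' (riemannZeta z) (riemannZeta s)
        have h5 : D * Q * ‖z - s‖ ≤ D * Q * u ^ 4 := by gcongr
        linarith
      have h6 : A * Q * ‖riemannZeta z‖ ≤ A * Q * (‖riemannZeta s‖ + D * Q * u ^ 4) := by gcongr
      have h7 : 2 * (A * Q * (D * Q * u ^ 4)) = u ^ 3 := by
        calc 2 * (A * Q * (D * Q * u ^ 4)) = u ^ 3 * (u * (2 * A * D * Q ^ 2)) := by ring
          _ = u ^ 3 := by rw [huQ, mul_one]
      nlinarith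
  rw [div_le_iff₀ (by positivity)]
  calc (1 : ℝ) = (u * (2 * A * D * Q ^ 2)) ^ 3 := by rw [huQ]; norm_num
    _ = u ^ 3 * (2 * A * D * Q ^ 2) ^ 3 := by ring
    _ ≤ (2 * A * Q * ‖riemannZeta s‖) * (2 * A * D * Q ^ 2) ^ 3 := by gcongr
    _ = Q ^ 7 * ‖riemannZeta s‖ * (16 * A ^ 4 * D ^ 3) := by ring

/-- lower bound near the real axis, by compactness -/
theorem lowB_near : ∃ c : ℝ, 0 < c ∧ ∀ s : ℂ, 1 ≤ s.re → s.re ≤ 2 → |s.im| ≤ 1 →
    c ≤ ‖(1 + (s - 1) * Z0 s) / s‖ := by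
  set K : Set ℂ := Set.Icc (1 : ℝ) 2 ×ℂ Set.Icc (-1 : ℝ) 1 with hK
  have hKc : IsCompact K := isCompact_Icc.reProdIm isCompact_Icc
  have hmem : ∀ s : ℂ, s ∈ K ↔ (1 ≤ s.re ∧ s.re ≤ 2) ∧ (-1 ≤ s.im ∧ s.im ≤ 1) := fun s => by
    rw [hK, Complex.mem_reProdIm]; rfl
  have h0 : ∀ s ∈ K, s ≠ 0 := by
    intro s hs h
    have := ((hmem s).1 hs).1.1
    rw [h, Complex.zero_re] at this
    linarith
  have hcont : ContinuousOn (fun s : ℂ => ‖(1 + (s - 1) * Z0 s) / s‖) K := by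
    refine ContinuousOn.norm (ContinuousOn.div ?_ continuousOn_id h0)
    refine continuousOn_const.add ((continuousOn_id.sub continuousOn_const).mul ?_)
    refine Z0_diff.continuousOn.mono fun s hs => ?_
    have := ((hmem s).1 hs).1.1
    show 0 < s.re
    linarith
  have hne : K.Nonempty := ⟨1, (hmem 1).2 (by simp)⟩
  obtain ⟨s₀, hs₀, hmin⟩ := hKc.exists_isMinOn hne hcont
  refine ⟨‖(1 + (s₀ - 1) * Z0 s₀) / s₀‖, ?_, fun s h1 h2 h3 => ?_⟩
  · rw [norm_pos_iff]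
    refine div_ne_zero ?_ (h0 s₀ hs₀)
    rcases eq_or_ne s₀ 1 with h | h
    · rw [h]; simp
    · have hre := ((hmem s₀).1 hs₀).1.1
      have h1 : s₀ - 1 ≠ 0 := sub_ne_zero.2 h
      have : 1 + (s₀ - 1) * Z0 s₀ = (s₀ - 1) * riemannZeta s₀ := by
        rw [zeta_eq_Z0 (by linarith) h]
        field_simp
      rw [this]
      exact mul_ne_zero h1 (riemannZeta_ne_zero_of_one_le_re hre)
  · exact hmin ((hmem s).2 ⟨⟨h1, h2⟩, abs_le.1 h3⟩)

theorem lowB_zeta_lower (ε : ℝ) (hε : 0 < ε) : ∃ c : ℝ, 0 < c ∧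
    ∀ s : ℂ, 1 < s.re → s.re ≤ 2 → c * (|s.im| + 2) ^ (-ε) ≤ ‖(1 + (s - 1) * Z0 s) / s‖ := by
  obtain ⟨c₁, hc₁, h₁⟩ := lowB_near
  set e : ℝ := min (ε / 7) (1 / 2) with he
  have he0 : 0 < e := lt_min (by positivity) (by norm_num)
  obtain ⟨c₂, hc₂, h₂⟩ := lowB_far he0 (min_le_right _ _)
  refine ⟨min c₁ (c₂ / 2), lt_min hc₁ (by positivity), fun s h1 h2 => ?_⟩
  have hP : 1 ≤ |s.im| + 2 := by linarith [abs_nonneg s.im]
  have hP0 : 0 < |s.im| + 2 := by linarith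
  have hc0 : 0 ≤ min c₁ (c₂ / 2) := (lt_min hc₁ (by positivity)).le
  rcases le_total |s.im| 1 with hy | hy
  · have h3 : (|s.im| + 2) ^ (-ε) ≤ 1 := Real.rpow_le_one_of_one_le_of_nonpos hP (by linarith)
    calc min c₁ (c₂ / 2) * (|s.im| + 2) ^ (-ε) ≤ min c₁ (c₂ / 2) * 1 := by gcongr
      _ ≤ c₁ := by rw [mul_one]; exact min_le_left _ _
      _ ≤ _ := h₁ s h1.le h2 hy
  · have hne : s ≠ 1 := by
      intro h
      rw [h] at h1
      simp at h1
    have hs1 : s - 1 ≠ 0 := sub_ne_zero.2 hne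
    have hs0 : s ≠ 0 := by
      intro h
      rw [h, Complex.zero_re] at h1
      linarith
    have hF : 1 + (s - 1) * Z0 s = (s - 1) * riemannZeta s := by
      rw [zeta_eq_Z0 (by linarith) hne]
      field_simp
    have hn1 : 1 ≤ ‖s - 1‖ := by
      refine le_trans ?_ (Complex.abs_im_le_norm _)
      rw [Complex.sub_im, Complex.one_im, sub_zero]
      exact hy
    have hn2 : ‖s‖ ≤ 2 * ‖s - 1‖ := by
      have := norm_le_norm_add_norm_sub' s 1
      rw [norm_one] at this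
      linarith
    have hs0' : 0 < ‖s‖ := norm_pos_iff.2 hs0
    have h3 : ‖riemannZeta s‖ / 2 ≤ ‖(1 + (s - 1) * Z0 s) / s‖ := by
      rw [hF, norm_div, norm_mul, div_le_div_iff₀ (by norm_num) hs0']
      have := norm_nonneg (riemannZeta s)
      nlinarith
    have h4 := h₂ s h1 h2 hy
    have h5 : ((|s.im| + 2) ^ e) ^ 7 ≤ (|s.im| + 2) ^ ε := by
      rw [← Real.rpow_natCast, ← Real.rpow_mul hP0.le]
      refine Real.rpow_le_rpow_of_exponent_le hP ?_
      have : e ≤ ε / 7 := min_le_left _ _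
      push_cast
      linarith
    have h6 : c₂ ≤ (|s.im| + 2) ^ ε * ‖riemannZeta s‖ :=
      h4.trans (mul_le_mul_of_nonneg_right h5 (norm_nonneg _))
    have hR : 0 < (|s.im| + 2) ^ ε := Real.rpow_pos_of_pos hP0 _
    have h7 : c₂ * (|s.im| + 2) ^ (-ε) ≤ ‖riemannZeta s‖ := by
      rw [Real.rpow_neg hP0.le, ← div_eq_mul_inv, div_le_iff₀ hR]
      linarith
    have h8 : 0 ≤ (|s.im| + 2) ^ (-ε) := Real.rpow_nonneg hP0.le _
    calc min c₁ (c₂ / 2) * (|s.im| + 2) ^ (-ε) ≤ c₂ / 2 * (|s.im| + 2) ^ (-ε) := by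
          gcongr
          exact min_le_right _ _
      _ ≤ ‖riemannZeta s‖ / 2 := by linarith
      _ ≤ _ := h3

end Crest.Agent.SW
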