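import Crest.Agent.Lib.SW.Siegel
import Crest.Agent.Lib.SW.LowerA
import Crest.Agent.Lib.SW.LowerB

/-!
# SW / Lower: lower bounds for `L(s,χ)` and `ζ(s)` on `1 < re s ≤ 2`
-/

set_option autoImplicit false

namespace Crest.Agent.SW

open Finset Complex DirichletCharacter

/-- Hint.  Put `P = q(|t|+2)`, `s = σ + it`; work with a small `ε₀` and constants depending on it.
`‖L'‖ ≤ U' = C P^{ε₀}` on `re ≥ 1` (Cauchy on discs of radius `ε₀/2`, `LFunction_bound`).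
`norm_LFunction_product_ge_one` with `‖L(σ,1)‖ ≤ ζ(σ) ≤ σ/(σ-1) ≤ 2/(σ-1)`(or `LFunction_bound'`) gives
`‖L(σ+it)‖^4 ≥ ((σ-1)/C P^{ε₀})^3 / U` with `U ≥ ‖L(σ+2it, χ²)‖`, where `U = C P^{ε₀}` if `χ² ≠ 1`
and `U = C P^{ε₀}/τ` if `χ² = 1`, `|t| ≥ τ`.  Choose `η` with `η U' ≤ (1/2)·(lower bound at 1+η)`;
for `σ ≤ 1+η` compare with the point `1+η+it`, for `σ ≥ 1+η` use the inequality at `σ` itself.
If `χ² = 1` and `|t| ≤ τ := ‖L(1)‖/(4U')`: for `σ - 1 ≤ τ` compare with `L(1)` (`siegel`), for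
`σ - 1 ≥ τ` use the product inequality with `‖L(σ+2it,1)‖ ≤ 1/τ + C P^{ε₀}`. -/
theorem LFunction_lower (ε : ℝ) (hε : 0 < ε) : ∃ c : ℝ, 0 < c ∧
    ∀ (q : ℕ) [NeZero q] (χ : DirichletCharacter ℂ q), χ ≠ 1 →
      ∀ s : ℂ, 1 < s.re → s.re ≤ 2 → c * ((q : ℝ) * (|s.im| + 2)) ^ (-ε) ≤ ‖LFunction χ s‖ := LFunction_lowerA ε hε

/-- the same for `ζ(s)(s-1)/s = (1 + (s-1) Z0 s)/s`: near `s = 1` the numerator is close to `1`;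
for `σ - 1 ≥ τ` or `|t| ≥ τ` argue as above with the character of level one, `‖(s-1)/s‖ ≥ c τ`. -/
theorem zeta_lower (ε : ℝ) (hε : 0 < ε) : ∃ c : ℝ, 0 < c ∧
    ∀ s : ℂ, 1 < s.re → s.re ≤ 2 → c * (|s.im| + 2) ^ (-ε) ≤ ‖(1 + (s - 1) * Z0 s) / s‖ :=
  lowB_zeta_lower ε hε

end Crest.Agent.SW
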