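import Mathlib

/-!
# SW / PerronA: Riesz means from bounds on vertical lines (Fourier inversion)
-/

set_option autoImplicit false

namespace Crest.Agent.SW

open Finset Complex MeasureTheory Filter Topology Set
open scoped FourierTransform Real

lemma pa_norm (s : ℂ) {u : ℝ} (hu : 0 ≤ u) :
    ‖(u : ℂ) * cexp (-s * u)‖ = u * Real.exp (-s.re * u) := by
  rw [norm_mul, Complex.norm_exp, Complex.norm_real, Real.norm_of_nonneg hu]
  simp

lemma pa_integrableOn {s : ℂ} (hs : 0 < s.re) :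
    IntegrableOn (fun u : ℝ => (u : ℂ) * cexp (-s * u)) (Ioi 0) := by
  have h := integrableOn_rpow_mul_exp_neg_mul_rpow (s := 1) (p := 1) (b := s.re) (by norm_num)
    one_pos hs
  refine Integrable.mono' h (Continuous.aestronglyMeasurable (by fun_prop)) ?_
  filter_upwards [ae_restrict_mem measurableSet_Ioi] with u hu
  rw [pa_norm s (le_of_lt hu)]
  simp

lemma pa_laplace {s : ℂ} (hs : 0 < s.re) :
    ∫ u : ℝ in Ioi 0, (u : ℂ) * cexp (-s * u) = 1 / s ^ 2 := by
  have hs0 : s ≠ 0 := by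
    rintro rfl
    simp at hs
  have hd : ∀ u ∈ Ici (0 : ℝ), HasDerivAt
      (fun u : ℝ => -(1 / s) * ((u : ℂ) * cexp (-s * u)) - 1 / s ^ 2 * cexp (-s * u))
      ((u : ℂ) * cexp (-s * u)) u := by
    intro u _
    have h1 : HasDerivAt (fun u : ℝ => (u : ℂ)) 1 u := Complex.ofRealCLM.hasDerivAt
    have h2 : HasDerivAt (fun u : ℝ => cexp (-s * u)) (cexp (-s * u) * (-s * 1)) u :=
      (h1.const_mul (-s)).cexp
    have h3 := ((h1.mul h2).const_mul (-(1 / s))).sub (h2.const_mul (1 / s ^ 2))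
    refine h3.congr_deriv ?_
    field_simp
    ring
  have ht1 : Tendsto (fun u : ℝ => (u : ℂ) * cexp (-s * u)) atTop (𝓝 0) := by
    rw [tendsto_zero_iff_norm_tendsto_zero]
    refine (tendsto_rpow_mul_exp_neg_mul_atTop_nhds_zero 1 s.re hs).congr' ?_
    filter_upwards [eventually_ge_atTop 0] with u hu
    rw [pa_norm s hu]
    simp
  have ht2 : Tendsto (fun u : ℝ => cexp (-s * u)) atTop (𝓝 0) := by
    rw [tendsto_zero_iff_norm_tendsto_zero]
    refine (tendsto_rpow_mul_exp_neg_mul_atTop_nhds_zero 0 s.re hs).congr' ?_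
    filter_upwards with u
    rw [Complex.norm_exp]
    simp
  have ht := (ht1.const_mul (-(1 / s))).sub (ht2.const_mul (1 / s ^ 2))
  rw [integral_Ioi_of_hasDerivAt_of_tendsto' hd (pa_integrableOn hs) ht]
  simp

/-- The point `σ + 2π i ξ`. -/
noncomputable def paS (σ ξ : ℝ) : ℂ := (σ : ℂ) + ((2 * π * ξ : ℝ) : ℂ) * I

@[simp] lemma paS_re (σ ξ : ℝ) : (paS σ ξ).re = σ := by simp [paS]

@[simp] lemma paS_im (σ ξ : ℝ) : (paS σ ξ).im = 2 * π * ξ := by simp [paS]

lemma continuous_paS (σ : ℝ) : Continuous (paS σ) := by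
  unfold paS
  fun_prop

lemma paS_ne {σ : ℝ} (hσ : 0 < σ) (ξ : ℝ) : paS σ ξ ≠ 0 := by
  intro h
  have := paS_re σ ξ
  rw [h] at this
  simp at this
  linarith

lemma paS_norm {σ : ℝ} (hσ : 1 ≤ σ) (ξ : ℝ) :
    ‖1 / paS σ ξ ^ 2‖ ≤ 1 / (1 + (2 * π * ξ) ^ 2) := by
  rw [norm_div, norm_one, norm_pow, Complex.sq_norm, Complex.normSq_apply, paS_re, paS_im]
  refine one_div_le_one_div_of_le (by positivity) ?_
  nlinarith

lemma pa_sq_le (ξ : ℝ) : 1 + ξ ^ 2 ≤ 1 + (2 * π * ξ) ^ 2 := by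
  have h : 1 ≤ (2 * π) ^ 2 := by nlinarith [Real.pi_gt_three]
  rw [mul_pow]
  nlinarith [sq_nonneg ξ]

lemma pa_integrable_inv {σ : ℝ} (hσ : 1 ≤ σ) : Integrable (fun ξ : ℝ => 1 / paS σ ξ ^ 2) := by
  refine Integrable.mono' integrable_inv_one_add_sq (Continuous.aestronglyMeasurable ?_) ?_
  · exact continuous_const.div ((continuous_paS σ).pow 2)
      fun ξ => pow_ne_zero 2 (paS_ne (by linarith) ξ)
  · filter_upwards with ξ
    refine (paS_norm hσ ξ).trans ?_
    rw [← one_div]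
    exact one_div_le_one_div_of_le (by positivity) (pa_sq_le ξ)

/-- Fourier inversion for `max v 0`. -/
lemma pa_inversion {σ : ℝ} (hσ : 1 ≤ σ) (v : ℝ) :
    ((max v 0 : ℝ) : ℂ) = ∫ ξ : ℝ, cexp (paS σ ξ * v) * (1 / paS σ ξ ^ 2) := by
  have hσ0 : 0 < σ := by linarith
  set g : ℝ → ℂ := fun u => ((max u 0 : ℝ) : ℂ) * cexp (-(σ : ℂ) * u) with hg
  have hgc : Continuous g := by fun_prop
  have hind : ∀ s : ℂ, (fun u : ℝ => ((max u 0 : ℝ) : ℂ) * cexp (-s * u)) =
      (Ioi (0 : ℝ)).indicator fun u : ℝ => (u : ℂ) * cexp (-s * u) := by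
    intro s
    funext u
    by_cases hu : u ∈ Ioi (0 : ℝ)
    · rw [indicator_of_mem hu, max_eq_left (le_of_lt hu)]
    · rw [indicator_of_notMem hu, max_eq_right (not_lt.1 hu)]
      simp
  have hgi : Integrable g := by
    rw [hg, hind, integrable_indicator_iff measurableSet_Ioi]
    exact pa_integrableOn (by simpa using hσ0)
  have hF : 𝓕 g = fun ξ : ℝ => 1 / paS σ ξ ^ 2 := by
    funext ξ
    rw [Real.fourier_real_eq_integral_exp_smul, ← pa_laplace (s := paS σ ξ) (by simpa using hσ0),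
      ← integral_indicator measurableSet_Ioi, ← hind]
    refine integral_congr_ae (Eventually.of_forall fun u => ?_)
    simp only [hg, smul_eq_mul]
    rw [mul_left_comm, ← Complex.exp_add]
    congr 2
    unfold paS
    push_cast
    ring
  have hinv := congrFun (hgc.fourierInv_fourier_eq hgi (hF ▸ pa_integrable_inv hσ)) v
  rw [hF, Real.fourierInv_eq'] at hinv
  have h1 : ((max v 0 : ℝ) : ℂ) = cexp (σ * v) * g v := by
    simp only [hg]
    rw [mul_left_comm, ← Complex.exp_add]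
    simp
  rw [h1, ← hinv, ← integral_const_mul]
  refine integral_congr_ae (Eventually.of_forall fun ξ => ?_)
  simp only [smul_eq_mul]
  rw [← mul_assoc, ← Complex.exp_add]
  congr 2
  unfold paS
  simp only [RCLike.inner_apply, conj_trivial]
  push_cast
  ring

/-- The majorant on the vertical line. -/
noncomputable def paW (ξ : ℝ) : ℝ := (|2 * π * ξ| + 2) ^ (1 / 2 : ℝ) * (1 / (1 + (2 * π * ξ) ^ 2))

lemma paW_nonneg (ξ : ℝ) : 0 ≤ paW ξ := by
  unfold paW
  positivity

lemma integrable_paW : Integrable paW := by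
  have h := (integrable_one_add_norm (E := ℝ) (μ := volume) (r := 3 / 2) (by norm_num)).const_mul 6
  refine Integrable.mono' h (Continuous.aestronglyMeasurable ?_) ?_
  · unfold paW
    refine Continuous.mul (Continuous.rpow_const (by fun_prop) fun _ => Or.inr (by norm_num)) ?_
    exact continuous_const.div (by fun_prop) fun ξ => by positivity
  · filter_upwards with ξ
    rw [Real.norm_of_nonneg (paW_nonneg ξ), Real.norm_eq_abs]
    set a : ℝ := 1 + |ξ| with ha
    have ha0 : 0 < a := by positivity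
    have h1 : a ^ (-(3 / 2) : ℝ) = a ^ (1 / 2 : ℝ) * (1 / a ^ 2) := by
      rw [show (-(3 / 2) : ℝ) = 1 / 2 - (2 : ℕ) by norm_num, Real.rpow_sub ha0, Real.rpow_natCast]
      ring
    have h2 : |2 * π * ξ| + 2 ≤ 9 * a := by
      rw [abs_mul, abs_of_pos (by positivity : 0 < 2 * π), ha]
      nlinarith [Real.pi_lt_four, abs_nonneg ξ]
    have h3 : (|2 * π * ξ| + 2) ^ (1 / 2 : ℝ) ≤ 3 * a ^ (1 / 2 : ℝ) := by
      refine (Real.rpow_le_rpow (by positivity) h2 (by norm_num)).trans (le_of_eq ?_)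
      rw [Real.mul_rpow (by norm_num) ha0.le, ← Real.sqrt_eq_rpow,
        show (9 : ℝ) = 3 ^ 2 by norm_num, Real.sqrt_sq (by norm_num)]
    have h4 : 1 / (1 + (2 * π * ξ) ^ 2) ≤ 2 * (1 / a ^ 2) := by
      refine (one_div_le_one_div_of_le (by positivity) (pa_sq_le ξ)).trans ?_
      rw [mul_one_div, div_le_div_iff₀ (by positivity) (by positivity), ha, ← sq_abs ξ]
      nlinarith [sq_nonneg (1 - |ξ|)]
    rw [h1]
    unfold paW
    calc _ ≤ (3 * a ^ (1 / 2 : ℝ)) * (2 * (1 / a ^ 2)) :=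
          mul_le_mul h3 h4 (by positivity) (by positivity)
      _ = _ := by ring

theorem riesz_bound' : ∃ C : ℝ, 0 < C ∧ ∀ (f : ℕ → ℂ) (B : ℝ),
    (∀ s : ℂ, 1 < s.re → LSeriesSummable f s) →
    (∀ s : ℂ, 1 < s.re → s.re ≤ 2 → ‖LSeries f s‖ ≤ B * (|s.im| + 2) ^ (1 / 2 : ℝ)) →
    ∀ x : ℝ, 3 ≤ x → ‖∑ n ∈ Finset.Icc 1 ⌊x⌋₊, f n * (Real.log (x / n) : ℂ)‖ ≤ C * B * x := by
  have hW : 0 ≤ ∫ ξ, paW ξ := integral_nonneg paW_nonneg
  refine ⟨Real.exp 1 * ((∫ ξ, paW ξ) + 1), by positivity, fun f B hsum hB x hx => ?_⟩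
  have hB0 : 0 ≤ B := by
    have h := (norm_nonneg _).trans (hB 2 (by norm_num) (by norm_num))
    exact nonneg_of_mul_nonneg_left h (by positivity)
  have hx0 : 0 < x := by linarith
  have hL : 1 < Real.log x := by
    rw [Real.lt_log_iff_exp_lt hx0]
    linarith [Real.exp_one_lt_d9]
  set L := Real.log x with hLdef
  set σ : ℝ := 1 + 1 / L with hσ
  have hσ1 : 1 < σ := by
    have : 0 < 1 / L := by positivity
    linarith
  have hσ2 : σ ≤ 2 := by
    have : 1 / L ≤ 1 := by rw [div_le_one (by linarith)]; exact hL.le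
    linarith
  have hexp : ∀ ξ : ℝ, ‖cexp (paS σ ξ * L)‖ = Real.exp 1 * x := by
    intro ξ
    rw [Complex.norm_exp]
    have : (paS σ ξ * L).re = 1 + L := by
      simp only [mul_re, paS_re, ofReal_re, ofReal_im, mul_zero, sub_zero, hσ]
      field_simp
      ring
    rw [this, Real.exp_add, hLdef, Real.exp_log hx0]
  set K : ℝ → ℂ := fun ξ => cexp (paS σ ξ * L) * (1 / paS σ ξ ^ 2) with hK
  have hKn : ∀ ξ, ‖K ξ‖ = Real.exp 1 * x * ‖1 / paS σ ξ ^ 2‖ := fun ξ => by
    simp only [hK]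
    rw [norm_mul, hexp]
  set F : ℕ → ℝ → ℂ := fun n ξ => LSeries.term f (paS σ ξ) n * K ξ with hF
  have hterm : ∀ n : ℕ, n ≠ 0 → ∀ ξ : ℝ, F n ξ =
      f n * (cexp (paS σ ξ * (Real.log (x / n) : ℝ)) * (1 / paS σ ξ ^ 2)) := by
    intro n hn ξ
    have hn' : (0 : ℝ) < n := by exact_mod_cast Nat.pos_of_ne_zero hn
    simp only [hF, hK]
    rw [LSeries.term_of_ne_zero hn, Real.log_div hx0.ne' hn'.ne',
      Complex.cpow_def_of_ne_zero (by exact_mod_cast hn), ← Complex.natCast_log, ← hLdef]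
    push_cast
    rw [mul_sub, Complex.exp_sub, mul_comm (Complex.log n)]
    ring
  have hnorm : ∀ (n : ℕ) (ξ : ℝ), ‖F n ξ‖ =
      ‖LSeries.term f σ n‖ * (Real.exp 1 * x * ‖1 / paS σ ξ ^ 2‖) := by
    intro n ξ
    simp only [hF]
    rw [norm_mul, hKn, LSeries.norm_term_eq, LSeries.norm_term_eq]
    simp
  have hFint : ∀ n, Integrable (F n) := by
    intro n
    refine Integrable.mono' ((((pa_integrable_inv hσ1.le).norm).const_mul
      (Real.exp 1 * x)).const_mul ‖LSeries.term f σ n‖) ?_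
      (Eventually.of_forall fun ξ => (hnorm n ξ).le)
    rcases eq_or_ne n 0 with rfl | hn
    · simp only [hF, LSeries.term_zero, zero_mul]
      exact aestronglyMeasurable_const
    · rw [show F n = _ from funext (hterm n hn)]
      refine Continuous.aestronglyMeasurable (continuous_const.mul (Continuous.mul ?_ ?_))
      · exact ((continuous_paS σ).mul continuous_const).cexp
      · exact continuous_const.div ((continuous_paS σ).pow 2)
          fun ξ => pow_ne_zero 2 (paS_ne (by linarith) ξ)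
  have hFsum : Summable fun n => ∫ ξ, ‖F n ξ‖ := by
    simp only [hnorm, integral_const_mul]
    exact (summable_norm_iff.2 (hsum σ (by simpa using hσ1))).mul_right _
  have hmain := hasSum_integral_of_summable_integral_norm hFint hFsum
  have hint : ∀ n : ℕ, n ≠ 0 → ∫ ξ, F n ξ = f n * ((max (Real.log (x / n)) 0 : ℝ) : ℂ) := by
    intro n hn
    rw [pa_inversion hσ1.le, ← integral_const_mul]
    exact integral_congr_ae (Eventually.of_forall (hterm n hn))
  have hfin : HasSum (fun n => ∫ ξ, F n ξ)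
      (∑ n ∈ Finset.Icc 1 ⌊x⌋₊, f n * (Real.log (x / n) : ℂ)) := by
    have h1 : ∑ n ∈ Finset.Icc 1 ⌊x⌋₊, f n * (Real.log (x / n) : ℂ) =
        ∑ n ∈ Finset.Icc 1 ⌊x⌋₊, ∫ ξ, F n ξ := by
      refine sum_congr rfl fun n hn => ?_
      rw [Finset.mem_Icc] at hn
      have hn' : (0 : ℝ) < n := by exact_mod_cast hn.1
      have hle : (n : ℝ) ≤ x := (Nat.le_floor_iff hx0.le).1 hn.2
      rw [hint n (by omega), max_eq_left (Real.log_nonneg ((one_le_div hn').2 hle))]
    rw [h1]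
    refine hasSum_sum_of_ne_finset_zero fun n hn => ?_
    rcases eq_or_ne n 0 with rfl | hn0
    · simp [hF]
    · have hlt : ⌊x⌋₊ < n := by
        rw [Finset.mem_Icc] at hn
        omega
      have hn' : (0 : ℝ) < n := by exact_mod_cast Nat.pos_of_ne_zero hn0
      have hle : x ≤ n := ((Nat.floor_lt hx0.le).1 hlt).le
      rw [hint n hn0, max_eq_right (Real.log_nonpos (by positivity) ((div_le_one hn').2 hle))]
      simp
  rw [hfin.unique hmain]
  have hb : ∀ ξ, ‖∑' n, F n ξ‖ ≤ Real.exp 1 * B * x * paW ξ := by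
    intro ξ
    simp only [hF]
    rw [tsum_mul_right, norm_mul, hKn]
    have h1 := hB (paS σ ξ) (by simpa using hσ1) (by simpa using hσ2)
    rw [paS_im] at h1
    have h2 := paS_norm hσ1.le ξ
    unfold paW
    calc _ ≤ (B * (|2 * π * ξ| + 2) ^ (1 / 2 : ℝ)) *
          (Real.exp 1 * x * (1 / (1 + (2 * π * ξ) ^ 2))) :=
          mul_le_mul h1 (mul_le_mul_of_nonneg_left h2 (by positivity)) (by positivity)
            (by positivity)
      _ = _ := by ring
  calc ‖∫ ξ, ∑' n, F n ξ‖ ≤ ∫ ξ, Real.exp 1 * B * x * paW ξ :=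
        norm_integral_le_of_norm_le (integrable_paW.const_mul _) (Eventually.of_forall hb)
    _ = Real.exp 1 * B * x * ∫ ξ, paW ξ := integral_const_mul _ _
    _ ≤ Real.exp 1 * B * x * ((∫ ξ, paW ξ) + 1) :=
        mul_le_mul_of_nonneg_left (by linarith) (by positivity)
    _ = _ := by ring

end Crest.Agent.SW
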