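import Mathlib

/-!
# SW / PerronB: removal of the logarithmic smoothing (`sum_bound_of_riesz`)
-/

set_option autoImplicit false

namespace Crest.Agent.SW

open Finset

/-- Abel summation against a decreasing nonnegative weight. -/
theorem PerronB_abel (g : ℕ → ℂ) (w : ℕ → ℝ) (M : ℝ) (a b : ℕ) (hab : a ≤ b)
    (hw0 : ∀ n, a < n → 0 ≤ w n) (hw : ∀ n, a < n → w (n + 1) ≤ w n)
    (hS : ∀ N, N ≤ b → ‖∑ n ∈ Icc 1 N, g n‖ ≤ M) :
    ‖∑ n ∈ Ioc a b, g n * (w n : ℂ)‖ ≤ 2 * M * w (a + 1) := by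
  have key : ∀ c, a ≤ c → c ≤ b →
      ‖∑ n ∈ Ioc a c, g n * (w n : ℂ) - (∑ n ∈ Icc 1 c, g n) * (w (c + 1) : ℂ)‖
        ≤ M * (2 * w (a + 1) - w (c + 1)) := by
    intro c hc
    induction c, hc using Nat.le_induction with
    | base =>
      intro h
      have h1 := hS a h
      have h2 := hw0 (a + 1) (Nat.lt_succ_self a)
      simp only [Ioc_self, sum_empty, zero_sub, norm_neg, norm_mul, Complex.norm_real,
        Real.norm_eq_abs, abs_of_nonneg h2]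
      nlinarith
    | succ c hc ih =>
      intro h
      have h1 := ih (by omega)
      have h2 := hS (c + 1) h
      have h3 := hw (c + 1) (by omega)
      have e : ∑ n ∈ Ioc a (c + 1), g n * (w n : ℂ)
            - (∑ n ∈ Icc 1 (c + 1), g n) * (w (c + 1 + 1) : ℂ)
          = (∑ n ∈ Ioc a c, g n * (w n : ℂ) - (∑ n ∈ Icc 1 c, g n) * (w (c + 1) : ℂ))
            + (∑ n ∈ Icc 1 (c + 1), g n) * ((w (c + 1) - w (c + 1 + 1) : ℝ) : ℂ) := by
        rw [sum_Ioc_succ_top hc, sum_Icc_succ_top (by omega : 1 ≤ c + 1)]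
        push_cast
        ring
      rw [e]
      refine (norm_add_le _ _).trans ?_
      rw [norm_mul, Complex.norm_real, Real.norm_eq_abs, abs_of_nonneg (sub_nonneg.2 h3)]
      nlinarith
  have h1 := key b hab le_rfl
  have h2 := hS b le_rfl
  have h3 := hw0 (b + 1) (by omega)
  have h4 : ‖(∑ n ∈ Icc 1 b, g n) * (w (b + 1) : ℂ)‖ ≤ M * w (b + 1) := by
    rw [norm_mul, Complex.norm_real, Real.norm_eq_abs, abs_of_nonneg h3]
    exact mul_le_mul_of_nonneg_right h2 h3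
  have h5 := norm_add_le (∑ n ∈ Ioc a b, g n * (w n : ℂ) - (∑ n ∈ Icc 1 b, g n) * (w (b + 1) : ℂ))
    ((∑ n ∈ Icc 1 b, g n) * (w (b + 1) : ℂ))
  rw [sub_add_cancel] at h5
  linarith

/-- Differencing the Riesz mean. -/
theorem PerronB_diff (g : ℕ → ℂ) (B G : ℝ) (hB : 0 ≤ B) (hG : 0 ≤ G)
    (hR : ∀ x : ℝ, 3 ≤ x → ‖∑ n ∈ Icc 1 ⌊x⌋₊, g n * (Real.log (x / n) : ℂ)‖ ≤ B * x)
    (N : ℕ) (hN : 3 ≤ N) (h : ℝ) (h0 : 0 < h) (h1 : h ≤ 1)
    (hg : ∀ n : ℕ, 1 ≤ n → (n : ℝ) ≤ N * Real.exp h → ‖g n‖ ≤ G) :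
    ‖∑ n ∈ Icc 1 N, g n‖ ≤ 4 * B * N / h + 2 * h * N * G := by
  have hN3 : (3 : ℝ) ≤ N := by exact_mod_cast hN
  have hN0 : (0 : ℝ) < N := by linarith
  have he1 : 1 ≤ Real.exp h := Real.one_le_exp h0.le
  have he2 : Real.exp h ≤ 1 + 2 * h := by
    have := Real.abs_exp_sub_one_le (x := h) (by rwa [abs_of_pos h0])
    rw [abs_of_pos h0] at this
    linarith [le_abs_self (Real.exp h - 1)]
  set y' : ℝ := N * Real.exp h with hy'
  have hy'N : (N : ℝ) ≤ y' := le_mul_of_one_le_right hN0.le he1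
  have hy'0 : 0 < y' := by linarith
  have hfl : N ≤ ⌊y'⌋₊ := Nat.le_floor hy'N
  have r1 := hR N hN3
  have r2 := hR y' (hN3.trans hy'N)
  rw [Nat.floor_natCast] at r1
  have hsplit : ∑ n ∈ Icc 1 ⌊y'⌋₊, g n * (Real.log (y' / n) : ℂ)
      = ∑ n ∈ Icc 1 N, g n * (Real.log (y' / n) : ℂ)
        + ∑ n ∈ Ioc N ⌊y'⌋₊, g n * (Real.log (y' / n) : ℂ) := by
    have e1 : ∀ k : ℕ, Icc 1 k = Ioc 0 k := fun k => by
      ext n
      simp only [mem_Icc, mem_Ioc]
      omega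
    rw [e1, e1, sum_Ioc_consecutive _ (Nat.zero_le N) hfl]
  have hlog : ∑ n ∈ Icc 1 N, g n * (Real.log (y' / n) : ℂ)
      = ∑ n ∈ Icc 1 N, g n * (Real.log (N / n) : ℂ) + (h : ℂ) * ∑ n ∈ Icc 1 N, g n := by
    rw [mul_sum, ← sum_add_distrib]
    refine sum_congr rfl fun n hn => ?_
    have hn0 : (0 : ℝ) < n := by exact_mod_cast (mem_Icc.1 hn).1
    have : Real.log (y' / n) = Real.log (N / n) + h := by
      rw [hy', mul_div_right_comm, Real.log_mul (by positivity) (by positivity), Real.log_exp]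
    rw [this]
    push_cast
    ring
  have htail : ‖∑ n ∈ Ioc N ⌊y'⌋₊, g n * (Real.log (y' / n) : ℂ)‖ ≤ (2 * h * N) * (G * h) := by
    have hb : ∀ n ∈ Ioc N ⌊y'⌋₊, ‖g n * (Real.log (y' / n) : ℂ)‖ ≤ G * h := by
      intro n hn
      obtain ⟨hn1, hn2⟩ := mem_Ioc.1 hn
      have hnN : (N : ℝ) ≤ n := by exact_mod_cast hn1.le
      have hn0 : (0 : ℝ) < n := by linarith
      have hny : (n : ℝ) ≤ y' := (Nat.le_floor_iff hy'0.le).1 hn2
      have l0 : 0 ≤ Real.log (y' / n) := Real.log_nonneg ((one_le_div hn0).2 hny)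
      have l1 : Real.log (y' / n) ≤ h := by
        rw [Real.log_le_iff_le_exp (by positivity), div_le_iff₀ hn0, hy', mul_comm]
        exact mul_le_mul_of_nonneg_left hnN (by positivity)
      rw [norm_mul, Complex.norm_real, Real.norm_eq_abs, abs_of_nonneg l0]
      exact mul_le_mul (hg n (by omega) hny) l1 l0 hG
    refine (norm_sum_le_of_le _ hb).trans ?_
    rw [sum_const, Nat.card_Ioc, nsmul_eq_mul]
    refine mul_le_mul_of_nonneg_right ?_ (by positivity)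
    rw [Nat.cast_sub hfl]
    have := Nat.floor_le hy'0.le
    nlinarith
  have e : (h : ℂ) * ∑ n ∈ Icc 1 N, g n
      = ∑ n ∈ Icc 1 ⌊y'⌋₊, g n * (Real.log (y' / n) : ℂ)
        - ∑ n ∈ Icc 1 N, g n * (Real.log (N / n) : ℂ)
        - ∑ n ∈ Ioc N ⌊y'⌋₊, g n * (Real.log (y' / n) : ℂ) := by
    rw [hsplit, hlog]
    ring
  have hn : h * ‖∑ n ∈ Icc 1 N, g n‖ ≤ B * y' + B * N + (2 * h * N) * (G * h) := by
    have : ‖(h : ℂ) * ∑ n ∈ Icc 1 N, g n‖ = h * ‖∑ n ∈ Icc 1 N, g n‖ := by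
      rw [norm_mul, Complex.norm_real, Real.norm_eq_abs, abs_of_pos h0]
    rw [← this, e]
    refine (norm_sub_le _ _).trans (add_le_add ((norm_sub_le _ _).trans (add_le_add r2 r1)) htail)
  have hy3 : y' ≤ 3 * N := by nlinarith
  have : B * y' ≤ B * (3 * N) := mul_le_mul_of_nonneg_left hy3 hB
  rw [div_add' _ _ _ h0.ne', le_div_iff₀ h0]
  nlinarith

theorem PerronB_main (A m : ℕ) : ∃ C : ℝ, 0 < C ∧ ∀ (f : ℕ → ℂ) (B : ℝ), 0 ≤ B →
    (∀ n : ℕ, 1 ≤ n → ‖f n‖ ≤ Real.log n + 1) →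
    (∀ x : ℝ, 3 ≤ x →
      ‖∑ n ∈ Icc 1 ⌊x⌋₊, f n * (Real.log n : ℂ) ^ m * (Real.log (x / n) : ℂ)‖ ≤ B * x) →
    ∀ x : ℝ, 3 ≤ x → ‖∑ n ∈ Icc 1 ⌊x⌋₊, f n‖ ≤
      C * x * (B * Real.log x ^ (A + 1) / Real.log x ^ m + 1 / Real.log x ^ A) := by
  set K : ℝ := 2 ^ (A + 1) * (A + 1).factorial with hK
  have hK0 : 0 < K := by positivity
  refine ⟨8 * 2 ^ m + 2 * K + 2 * 2 ^ m * 3 ^ (m + 1) * (2 + 2 * K), by positivity, ?_⟩
  intro f B hB hf hR x hx
  set L := Real.log x with hL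
  have hx0 : 0 < x := by linarith
  have hL1 : 1 ≤ L := by
    rw [hL, Real.le_log_iff_exp_le hx0]
    exact Real.exp_one_lt_three.le.trans hx
  have hL0 : 0 < L := by linarith
  set g : ℕ → ℂ := fun n => f n * (Real.log n : ℂ) ^ m with hg
  set h : ℝ := 1 / L ^ (A + 1) with hh
  have hLA : 1 ≤ L ^ (A + 1) := one_le_pow₀ hL1
  have h0 : 0 < h := by positivity
  have h1 : h ≤ 1 := by rw [hh, div_le_one (by positivity)]; exact hLA
  set G : ℝ := (3 * L) ^ (m + 1) with hG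
  have hG0 : 0 < G := by positivity
  have hgb : ∀ n : ℕ, 1 ≤ n → (n : ℝ) ≤ x * Real.exp 1 → ‖g n‖ ≤ G := by
    intro n hn hnx
    have hn1 : (1 : ℝ) ≤ n := by exact_mod_cast hn
    have l0 : 0 ≤ Real.log n := Real.log_nonneg hn1
    have l1 : Real.log n ≤ L + 1 := by
      have := Real.log_le_log (by linarith) hnx
      rwa [Real.log_mul hx0.ne' (Real.exp_pos 1).ne', Real.log_exp] at this
    simp only [hg, norm_mul, norm_pow, Complex.norm_real, Real.norm_eq_abs, abs_of_nonneg l0]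
    rw [hG, pow_succ']
    exact mul_le_mul ((hf n hn).trans (by linarith)) (pow_le_pow_left₀ l0 (by linarith) m)
      (by positivity) (by positivity)
  set M : ℝ := 4 * B * x / h + 2 * h * x * G + 2 * G with hM
  have hS : ∀ N, N ≤ ⌊x⌋₊ → ‖∑ n ∈ Icc 1 N, g n‖ ≤ M := by
    intro N hN
    have hNx : (N : ℝ) ≤ x := (Nat.le_floor_iff hx0.le).1 hN
    have hN0 : (0 : ℝ) ≤ N := Nat.cast_nonneg N
    have he : (1 : ℝ) ≤ Real.exp 1 := Real.one_le_exp zero_le_one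
    have p1 : 0 ≤ 4 * B * x / h := by positivity
    have p2 : 0 ≤ 2 * h * x * G := by positivity
    rcases le_or_gt 3 N with h3 | h3
    · have := PerronB_diff g B G hB hG0.le hR N h3 h h0 h1 fun n hn hnx =>
        hgb n hn (hnx.trans (mul_le_mul hNx (Real.exp_le_exp.2 h1) (by positivity) hx0.le))
      have q1 : 4 * B * N / h ≤ 4 * B * x / h := by gcongr
      have q2 : 2 * h * N * G ≤ 2 * h * x * G := by gcongr
      linarith
    · have hb : ∀ n ∈ Icc 1 N, ‖g n‖ ≤ G := fun n hn => by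
        obtain ⟨hn1, hn2⟩ := mem_Icc.1 hn
        have : (n : ℝ) ≤ N := by exact_mod_cast hn2
        exact hgb n hn1 (by nlinarith)
      refine (norm_sum_le_of_le _ hb).trans ?_
      rw [sum_const, Nat.card_Icc, nsmul_eq_mul, Nat.add_sub_cancel]
      have : (N : ℝ) ≤ 2 := by exact_mod_cast (by omega : N ≤ 2)
      nlinarith
  set r := Real.sqrt x with hr
  have hr0 : 0 < r := Real.sqrt_pos.2 hx0
  have hrr : r * r = x := Real.mul_self_sqrt hx0.le
  have hr1 : 1 ≤ r := by nlinarith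
  have hrx : r ≤ x := by nlinarith
  have hlr : Real.log r = L / 2 := Real.log_sqrt hx0.le
  set a := ⌊r⌋₊ with ha
  have ha1 : 1 ≤ a := Nat.le_floor (by simpa using hr1)
  have hab : a ≤ ⌊x⌋₊ := Nat.floor_le_floor hrx
  have har : (a : ℝ) ≤ r := Nat.floor_le hr0.le
  have hra : r < a + 1 := Nat.lt_floor_add_one r
  have hlogpos : ∀ n : ℕ, a < n → 0 < Real.log n := fun n hn =>
    Real.log_pos (by exact_mod_cast (by omega : 1 < n))
  have habel := PerronB_abel g (fun n => 1 / Real.log n ^ m) M a ⌊x⌋₊ hab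
    (fun n hn => by have := hlogpos n hn; positivity)
    (fun n hn => by
      have h2 := hlogpos n hn
      have h3 : (0 : ℝ) < n := by exact_mod_cast (by omega : 0 < n)
      refine one_div_le_one_div_of_le (by positivity) (pow_le_pow_left₀ h2.le ?_ m)
      exact Real.log_le_log h3 (by push_cast; linarith)) hS
  have htail : ∑ n ∈ Ioc a ⌊x⌋₊, g n * ((1 / Real.log n ^ m : ℝ) : ℂ) = ∑ n ∈ Ioc a ⌊x⌋₊, f n := by
    refine sum_congr rfl fun n hn => ?_
    have h2 : (Real.log n : ℂ) ≠ 0 := by exact_mod_cast (hlogpos n (mem_Ioc.1 hn).1).ne'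
    simp only [hg, Complex.ofReal_div, Complex.ofReal_one, Complex.ofReal_pow]
    field_simp
  rw [htail] at habel
  have hw : 1 / Real.log ((a + 1 : ℕ) : ℝ) ^ m ≤ 2 ^ m / L ^ m := by
    rw [← div_pow, ← one_div_div L 2, one_div_pow]
    refine one_div_le_one_div_of_le (by positivity) (pow_le_pow_left₀ (by positivity) ?_ m)
    rw [← hlr]
    exact Real.log_le_log hr0 (by push_cast; linarith)
  have hhead : ‖∑ n ∈ Ioc 0 a, f n‖ ≤ r * (2 * L) := by
    have hb : ∀ n ∈ Ioc 0 a, ‖f n‖ ≤ 2 * L := fun n hn => by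
      obtain ⟨hn1, hn2⟩ := mem_Ioc.1 hn
      have h2 : (n : ℝ) ≤ a := by exact_mod_cast hn2
      have h3 : (0 : ℝ) < n := by exact_mod_cast hn1
      have := Real.log_le_log h3 (h2.trans (har.trans hrx))
      linarith [hf n hn1]
    refine (norm_sum_le_of_le _ hb).trans ?_
    rw [sum_const, Nat.card_Ioc, nsmul_eq_mul, Nat.sub_zero]
    gcongr
  have hsplit : ∑ n ∈ Icc 1 ⌊x⌋₊, f n = ∑ n ∈ Ioc 0 a, f n + ∑ n ∈ Ioc a ⌊x⌋₊, f n := by
    have e1 : Icc 1 ⌊x⌋₊ = Ioc 0 ⌊x⌋₊ := by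
      ext n
      simp only [mem_Icc, mem_Ioc]
      omega
    rw [e1, sum_Ioc_consecutive _ (Nat.zero_le a) hab]
  have hM0 : 0 ≤ M := by positivity
  have hKr : L ^ (A + 1) ≤ K * r := by
    have h2 := Real.pow_div_factorial_le_exp (L / 2) (by positivity) (A + 1)
    rw [← hlr, Real.exp_log hr0, hlr, div_pow, div_div, div_le_iff₀ (by positivity)] at h2
    rw [hK]
    linarith
  set u : ℝ := x / L ^ A with hu
  have hu0 : 0 < u := by positivity
  have hrL : r * L ≤ K * u := by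
    rw [hu, ← mul_div_assoc, le_div_iff₀ (by positivity), ← hrr]
    have : r * L ^ (A + 1) ≤ r * (K * r) := mul_le_mul_of_nonneg_left hKr hr0.le
    rw [pow_succ] at this
    nlinarith
  have hLu : L ≤ K * u := le_trans (le_mul_of_one_le_left hL0.le hr1) hrL
  set t : ℝ := x * (B * L ^ (A + 1) / L ^ m) with ht
  have ht0 : 0 ≤ t := by positivity
  have hMw : 2 * M * (2 ^ m / L ^ m)
      = 8 * 2 ^ m * t + 2 * 2 ^ m * 3 ^ (m + 1) * (2 * u + 2 * L) := by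
    rw [hM, ht, hu, hG, hh, mul_pow]
    field_simp
    ring
  have hgoal : (8 * 2 ^ m + 2 * K + 2 * 2 ^ m * 3 ^ (m + 1) * (2 + 2 * K)) * x
      * (B * L ^ (A + 1) / L ^ m + 1 / L ^ A)
      = (8 * 2 ^ m + 2 * K + 2 * 2 ^ m * 3 ^ (m + 1) * (2 + 2 * K)) * (t + u) := by
    rw [ht, hu]
    ring
  rw [hgoal, hsplit]
  refine (norm_add_le _ _).trans ?_
  have h5 : ‖∑ n ∈ Ioc a ⌊x⌋₊, f n‖ ≤ 2 * M * (2 ^ m / L ^ m) :=
    habel.trans (mul_le_mul_of_nonneg_left hw (by positivity))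
  rw [hMw] at h5
  set c : ℝ := 2 * 2 ^ m * 3 ^ (m + 1) with hc
  have hc0 : 0 < c := by positivity
  set d : ℝ := 8 * 2 ^ m with hd
  have hd0 : 0 < d := by positivity
  have h6 : c * (2 * u + 2 * L) ≤ c * (2 * u + 2 * (K * u)) := by gcongr
  have h7 : 0 ≤ d * u := by positivity
  have h8 : 0 ≤ (2 * K + c * (2 + 2 * K)) * t := by positivity
  nlinarith

end Crest.Agent.SW
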