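import Mathlib
import Crest.Agent.Lib.SW.PerronA
import Crest.Agent.Lib.SW.PerronB

/-!
# SW / Perron: Riesz means from bounds on vertical lines, and removal of the smoothing
-/

set_option autoImplicit false

namespace Crest.Agent.SW

open Finset Complex

/-- Hint.  `σ = 1 + 1/log x`.  `u ↦ max u 0 * exp (-σ u)` is continuous, integrable, with Fourier
transform `ξ ↦ 1/(σ + 2π i ξ)^2`; Fourier inversion gives
`max (log y) 0 = ∫ ξ, y^{σ+2π i ξ}/(σ+2π i ξ)^2`; put `y = x/n`, sum with `f n`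
(`integral_tsum` / `hasSum_integral_of_summable_norm`), and bound `x^σ = e x`,
`∫ (|2πξ|+2)^{1/2}/‖σ+2π i ξ‖^2 ≤ C`. -/
theorem riesz_bound : ∃ C : ℝ, 0 < C ∧ ∀ (f : ℕ → ℂ) (B : ℝ),
    (∀ s : ℂ, 1 < s.re → LSeriesSummable f s) →
    (∀ s : ℂ, 1 < s.re → s.re ≤ 2 → ‖LSeries f s‖ ≤ B * (|s.im| + 2) ^ (1 / 2 : ℝ)) →
    ∀ x : ℝ, 3 ≤ x → ‖∑ n ∈ Icc 1 ⌊x⌋₊, f n * (Real.log (x / n) : ℂ)‖ ≤ C * B * x :=
  riesz_bound'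

/-- Hint.  Let `g n = f n (log n)^m`, `S y = ∑_{n ≤ y} g n`, `R y = ∑_{n ≤ y} g n log (y/n)`.
For `y' = y e^h`: `R y' - R y - h S y = ∑_{y < n ≤ y'} g n log (y'/n)`, of norm
`≤ (y' - y + 1) h (log y' + 1)^{m+1}`; take `h = (log x)^{-(A+1)}`, `√x ≤ y ≤ x`.  Then Abel
summation with the decreasing weight `(log n)^{-m}` on `(√x, x]`, and the trivial bound below `√x`
(small `x` by enlarging `C`). -/
theorem sum_bound_of_riesz (A m : ℕ) : ∃ C : ℝ, 0 < C ∧ ∀ (f : ℕ → ℂ) (B : ℝ), 0 ≤ B →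
    (∀ n : ℕ, 1 ≤ n → ‖f n‖ ≤ Real.log n + 1) →
    (∀ x : ℝ, 3 ≤ x →
      ‖∑ n ∈ Icc 1 ⌊x⌋₊, f n * (Real.log n : ℂ) ^ m * (Real.log (x / n) : ℂ)‖ ≤ B * x) →
    ∀ x : ℝ, 3 ≤ x → ‖∑ n ∈ Icc 1 ⌊x⌋₊, f n‖ ≤
      C * x * (B * Real.log x ^ (A + 1) / Real.log x ^ m + 1 / Real.log x ^ A) :=
  PerronB_main A m

end Crest.Agent.SW
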