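import Crest.Agent.Lib.SW.Deriv
import Crest.Agent.Lib.SW.Perron

/-!
# SW / Main: the Siegel-Walfisz theorem
-/

set_option autoImplicit false

namespace Crest.Agent.SW

open Finset Complex DirichletCharacter ArithmeticFunction

theorem main_log_pow (k : ℕ) {δ : ℝ} (hδ : 0 < δ) :
    ∃ C : ℝ, 0 < C ∧ ∀ x : ℝ, 1 ≤ x → Real.log x ^ k ≤ C * x ^ δ := by
  have hε : 0 < δ / (k + 1) := by positivity
  refine ⟨((δ / (k + 1)) ^ k)⁻¹, by positivity, fun x hx => ?_⟩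
  have h1 := Real.log_le_rpow_div (by linarith : 0 ≤ x) hε
  calc Real.log x ^ k ≤ (x ^ (δ / (k + 1)) / (δ / (k + 1))) ^ k :=
        pow_le_pow_left₀ (Real.log_nonneg hx) h1 k
    _ = ((δ / (k + 1)) ^ k)⁻¹ * x ^ (δ / (k + 1) * k) := by
        rw [div_pow, Real.rpow_mul_natCast (by linarith), div_eq_inv_mul]
    _ ≤ _ := by
        refine mul_le_mul_of_nonneg_left (Real.rpow_le_rpow_of_exponent_le hx ?_) (by positivity)
        rw [div_mul_eq_mul_div, div_le_iff₀ (by positivity)]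
        nlinarith

theorem main_one_le_log {x : ℝ} (hx : 3 ≤ x) : 1 ≤ Real.log x := by
  rw [Real.le_log_iff_exp_le (by linarith)]
  linarith [Real.exp_one_lt_d9]

theorem main_summable {f : ℕ → ℂ} (hf : ∀ n : ℕ, 1 ≤ n → ‖f n‖ ≤ Real.log n + 1) (m : ℕ) {s : ℂ}
    (hs : 1 < s.re) : LSeriesSummable (fun n : ℕ => f n * (Real.log n : ℂ) ^ m) s := by
  have hδ : 0 < (s.re - 1) / 2 := by linarith
  obtain ⟨C₁, -, h₁⟩ := main_log_pow (m + 1) hδ
  obtain ⟨C₂, -, h₂⟩ := main_log_pow m hδ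
  refine LSeriesSummable_of_le_const_mul_rpow (x := (s.re - 1) / 2 + 1) (by linarith)
    ⟨C₁ + C₂, fun n hn => ?_⟩
  have hn1 : 1 ≤ n := Nat.one_le_iff_ne_zero.2 hn
  have hn' : (1 : ℝ) ≤ n := by exact_mod_cast hn1
  have h0 := Real.log_nonneg hn'
  rw [add_sub_cancel_right, norm_mul, norm_pow, Complex.norm_real, Real.norm_of_nonneg h0]
  calc ‖f n‖ * Real.log n ^ m ≤ (Real.log n + 1) * Real.log n ^ m :=
        mul_le_mul_of_nonneg_right (hf n hn1) (by positivity)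
    _ = Real.log n ^ (m + 1) + Real.log n ^ m := by ring
    _ ≤ _ := by rw [add_mul]; exact add_le_add (h₁ n hn') (h₂ n hn')

theorem main_core (A : ℕ) : ∃ C : ℝ, 0 < C ∧ ∀ (f : ℕ → ℂ) (B : ℝ), 0 ≤ B →
    (∀ n : ℕ, 1 ≤ n → ‖f n‖ ≤ Real.log n + 1) →
    (∀ s : ℂ, 1 < s.re → s.re ≤ 2 →
      ‖LSeries (fun n : ℕ => f n * (Real.log n : ℂ) ^ (2 * A + 2)) s‖ ≤
        B * (|s.im| + 2) ^ (1 / 2 : ℝ)) →
    ∀ x : ℝ, 3 ≤ x → ‖∑ n ∈ Icc 1 ⌊x⌋₊, f n‖ ≤
      C * (B / Real.log x + 1) * x / Real.log x ^ A := by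
  obtain ⟨C₁, p₁, h₁⟩ := riesz_bound
  obtain ⟨C₂, p₂, h₂⟩ := sum_bound_of_riesz A (2 * A + 2)
  refine ⟨C₂ * (C₁ + 1), by positivity, fun f B hB hf hL x hx => ?_⟩
  have k := h₂ f (C₁ * B) (by positivity) hf
    (h₁ _ B (fun s hs => main_summable hf _ hs) hL) x hx
  have hl := main_one_le_log hx
  have hl0 : 0 < Real.log x := by linarith
  refine k.trans ?_
  have e : C₂ * x * (C₁ * B * Real.log x ^ (A + 1) / Real.log x ^ (2 * A + 2) + 1 / Real.log x ^ A) =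
      C₂ * (C₁ * (B / Real.log x) + 1) * x / Real.log x ^ A := by
    field_simp
    ring
  rw [e]
  have h3 : 0 ≤ B / Real.log x := by positivity
  refine div_le_div_of_nonneg_right (mul_le_mul_of_nonneg_right ?_ (by linarith)) (by positivity)
  rw [mul_assoc]
  exact mul_le_mul_of_nonneg_left (by nlinarith) p₂.le

/-- `√x (log x)^k ≤ C x / (log x)^A` -/
theorem main_small (A k : ℕ) : ∃ C : ℝ, 0 < C ∧ ∀ x : ℝ, 3 ≤ x →
    √x * Real.log x ^ k ≤ C * x / Real.log x ^ A := by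
  obtain ⟨C, hC, h⟩ := main_log_pow (k + A) (δ := 1 / 2) (by norm_num)
  refine ⟨C, hC, fun x hx => ?_⟩
  have hl := main_one_le_log hx
  have h1 := h x (by linarith)
  rw [← Real.sqrt_eq_rpow] at h1
  rw [le_div_iff₀ (by positivity), mul_assoc, ← pow_add]
  calc √x * Real.log x ^ (k + A) ≤ √x * (C * √x) :=
        mul_le_mul_of_nonneg_left h1 (Real.sqrt_nonneg x)
    _ = C * (√x * √x) := by ring
    _ = C * x := by rw [Real.mul_self_sqrt (by linarith)]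

/-- `twist_bound` with `m = 2A+2`, `ε = min (1/2) (1/(B+1))` so that `q^ε ≤ log x`; `riesz_bound`,
`sum_bound_of_riesz` -/
theorem psi_char (A B : ℕ) : ∃ C : ℝ, 0 < C ∧ ∀ x : ℝ, 3 ≤ x →
    ∀ (q : ℕ) [NeZero q], (q : ℝ) ≤ Real.log x ^ B → ∀ χ : DirichletCharacter ℂ q, χ ≠ 1 →
      ‖∑ n ∈ Icc 1 ⌊x⌋₊, χ n * (vonMangoldt n : ℂ)‖ ≤ C * x / Real.log x ^ A := by
  obtain ⟨C₁, p₁, h₁⟩ := main_core A
  have hε : (0 : ℝ) < 1 / (B + 2) := by positivity
  obtain ⟨C₂, p₂, h₂⟩ := twist_bound (2 * A + 2) _ hε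
  refine ⟨C₁ * (C₂ + 1), by positivity, fun x hx q _ hq χ hχ => ?_⟩
  have hl := main_one_le_log hx
  have hq0 : (0 : ℝ) ≤ q := Nat.cast_nonneg q
  have hB : (0 : ℝ) ≤ B := Nat.cast_nonneg B
  have k := h₁ (fun n => χ n * (vonMangoldt n : ℂ)) (C₂ * (q : ℝ) ^ (1 / (B + 2) : ℝ))
    (by positivity) (fun n _ => by
      rw [norm_mul, Complex.norm_real, Real.norm_of_nonneg vonMangoldt_nonneg]
      have := mul_le_of_le_one_left (vonMangoldt_nonneg (n := n)) (χ.norm_le_one n)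
      linarith [vonMangoldt_le_log (n := n)])
    (fun s h1 h2 => by
      refine (h₂ q χ hχ s h1 h2).trans ?_
      have h3 : (1 : ℝ) ≤ |s.im| + 2 := by linarith [abs_nonneg s.im]
      rw [Real.mul_rpow hq0 (by linarith), ← mul_assoc]
      refine mul_le_mul_of_nonneg_left (Real.rpow_le_rpow_of_exponent_le h3 ?_) (by positivity)
      exact one_div_le_one_div_of_le (by norm_num) (by linarith)) x hx
  have h3 : (q : ℝ) ^ (1 / (B + 2) : ℝ) ≤ Real.log x := by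
    calc (q : ℝ) ^ (1 / (B + 2) : ℝ) ≤ (Real.log x ^ B) ^ (1 / (B + 2) : ℝ) :=
          Real.rpow_le_rpow hq0 hq hε.le
      _ = Real.log x ^ ((B : ℝ) * (1 / (B + 2))) := by
          rw [← Real.rpow_natCast, ← Real.rpow_mul (by linarith)]
      _ ≤ Real.log x ^ (1 : ℝ) := by
          refine Real.rpow_le_rpow_of_exponent_le hl ?_
          rw [mul_one_div, div_le_one (by positivity)]
          linarith
      _ = _ := Real.rpow_one _
  have h4 : C₂ * (q : ℝ) ^ (1 / (B + 2) : ℝ) / Real.log x ≤ C₂ := by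
    rw [div_le_iff₀ (by linarith)]
    exact mul_le_mul_of_nonneg_left h3 p₂.le
  refine k.trans (div_le_div_of_nonneg_right (mul_le_mul_of_nonneg_right ?_ (by linarith))
    (by positivity))
  exact mul_le_mul_of_nonneg_left (by linarith) p₁.le

/-- prime number theorem with error term -/
theorem psi_one (A : ℕ) : ∃ C : ℝ, 0 < C ∧ ∀ x : ℝ, 3 ≤ x →
    |∑ n ∈ Icc 1 ⌊x⌋₊, vonMangoldt n - x| ≤ C * x / Real.log x ^ A := by
  obtain ⟨C₁, p₁, h₁⟩ := main_core A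
  obtain ⟨C₂, p₂, h₂⟩ := one_bound (2 * A + 2) (1 / 2) (by norm_num)
  obtain ⟨C₃, p₃, h₃⟩ := main_small A 0
  refine ⟨C₁ * (C₂ + 1) + C₃, by positivity, fun x hx => ?_⟩
  have hl := main_one_le_log hx
  have k := h₁ (fun n => (vonMangoldt n : ℂ) - 1) C₂ p₂.le (fun n _ => by
      refine (norm_sub_le _ _).trans ?_
      rw [norm_one, Complex.norm_real, Real.norm_of_nonneg vonMangoldt_nonneg]
      linarith [vonMangoldt_le_log (n := n)]) h₂ x hx
  have e : ∑ n ∈ Icc 1 ⌊x⌋₊, ((vonMangoldt n : ℂ) - 1) =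
      ((∑ n ∈ Icc 1 ⌊x⌋₊, vonMangoldt n - ⌊x⌋₊ : ℝ) : ℂ) := by
    rw [sum_sub_distrib]
    simp
  rw [e, Complex.norm_real, Real.norm_eq_abs] at k
  have h4 : C₂ / Real.log x ≤ C₂ := div_le_self p₂.le hl
  have h5 : C₁ * (C₂ / Real.log x + 1) * x / Real.log x ^ A ≤ C₁ * (C₂ + 1) * x / Real.log x ^ A :=
    div_le_div_of_nonneg_right (mul_le_mul_of_nonneg_right
      (mul_le_mul_of_nonneg_left (by linarith) p₁.le) (by linarith)) (by positivity)
  have h6 := h₃ x hx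
  have h7 : 1 ≤ √x := Real.one_le_sqrt.2 (by linarith)
  rw [pow_zero, mul_one] at h6
  have h8 := Nat.floor_le (show 0 ≤ x by linarith)
  have h9 := Nat.lt_floor_add_one x
  rw [add_mul, add_div, abs_le]
  rw [abs_le] at k
  constructor <;> linarith [k.1, k.2]

/-- `θ(x; q, a)` -/
noncomputable def thetaAP (x : ℝ) (q : ℕ) (a : ℤ) : ℝ :=
  ∑ p ∈ (Icc 1 ⌊x⌋₊).filter (fun p : ℕ => p.Prime ∧ (p : ℤ) ≡ a [ZMOD q]), Real.log p

theorem main_Icc (N : ℕ) : Icc 1 N = Ioc 0 N := by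
  ext n
  simp only [mem_Icc, mem_Ioc]
  omega

/-- removing the proper prime powers -/
theorem main_prime_sum {x : ℝ} (hx : 1 ≤ x) (c : ℕ → ℂ) (hc : ∀ n, ‖c n‖ ≤ 1) :
    ‖∑ n ∈ Icc 1 ⌊x⌋₊, c n * (vonMangoldt n : ℂ) -
      ∑ p ∈ (Icc 1 ⌊x⌋₊).filter Nat.Prime, c p * (Real.log p : ℂ)‖ ≤ 2 * √x * Real.log x := by
  have e : ∑ p ∈ (Icc 1 ⌊x⌋₊).filter Nat.Prime, c p * (Real.log p : ℂ) =
      ∑ p ∈ (Icc 1 ⌊x⌋₊).filter Nat.Prime, c p * (vonMangoldt p : ℂ) :=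
    sum_congr rfl fun p hp => by rw [vonMangoldt_apply_prime (mem_filter.1 hp).2]
  rw [e, ← sum_filter_add_sum_filter_not (Icc 1 ⌊x⌋₊) Nat.Prime, add_sub_cancel_left]
  refine le_trans ?_ (Chebyshev.psi_sub_theta_le hx)
  rw [Chebyshev.psi_sub_theta_eq_sum_not_prime, main_Icc]
  refine (norm_sum_le _ _).trans (sum_le_sum fun n _ => ?_)
  rw [norm_mul, Complex.norm_real, Real.norm_of_nonneg vonMangoldt_nonneg]
  exact mul_le_of_le_one_left vonMangoldt_nonneg (hc n)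

/-- the principal character on primes -/
theorem main_principal (N q : ℕ) [NeZero q] :
    ‖∑ p ∈ (Icc 1 N).filter Nat.Prime, (1 : ℂ) * (Real.log p : ℂ) -
      ∑ p ∈ (Icc 1 N).filter Nat.Prime, (1 : DirichletCharacter ℂ q) p * (Real.log p : ℂ)‖ ≤
      Real.log q := by
  rw [← sum_sub_distrib, ← vonMangoldt_sum]
  refine (norm_sum_le _ _).trans ?_
  calc ∑ p ∈ (Icc 1 N).filter Nat.Prime,
        ‖(1 : ℂ) * (Real.log p : ℂ) - (1 : DirichletCharacter ℂ q) p * (Real.log p : ℂ)‖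
      = ∑ p ∈ ((Icc 1 N).filter Nat.Prime).filter (· ∣ q), vonMangoldt p := by
        rw [sum_filter (· ∣ q)]
        refine sum_congr rfl fun p hp => ?_
        have hp' := (mem_filter.1 hp).2
        have hu : IsUnit (p : ZMod q) ↔ ¬p ∣ q := by
          rw [ZMod.isUnit_iff_coprime, hp'.coprime_iff_not_dvd]
        split_ifs with h
        · rw [MulChar.map_nonunit _ (by rw [hu]; exact not_not.2 h), zero_mul, sub_zero, one_mul,
            Complex.norm_real, Real.norm_of_nonneg (Real.log_natCast_nonneg p),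
            vonMangoldt_apply_prime hp']
        · rw [MulChar.one_apply (hu.2 h), sub_self, norm_zero]
    _ ≤ ∑ d ∈ q.divisors, vonMangoldt d :=
        sum_le_sum_of_subset_of_nonneg
          (fun p hp => Nat.mem_divisors.2 ⟨(mem_filter.1 hp).2, NeZero.ne q⟩)
          fun _ _ _ => vonMangoldt_nonneg

theorem main_orth (x : ℝ) (q : ℕ) [NeZero q] {a : ℤ} (ha : IsUnit (a : ZMod q)) :
    ∑ χ : DirichletCharacter ℂ q, χ (a : ZMod q)⁻¹ *
      ∑ p ∈ (Icc 1 ⌊x⌋₊).filter Nat.Prime, χ p * (Real.log p : ℂ) =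
      (Nat.totient q : ℂ) * (thetaAP x q a : ℂ) := by
  simp only [mul_sum, ← mul_assoc]
  rw [sum_comm]
  simp only [← sum_mul, sum_char_inv_mul_char_eq ℂ ha]
  rw [thetaAP, ← filter_filter, sum_filter (fun p : ℕ => (p : ℤ) ≡ a [ZMOD q]), Complex.ofReal_sum,
    mul_sum]
  refine sum_congr rfl fun p _ => ?_
  have e : ((a : ZMod q) = (p : ZMod q)) ↔ (p : ℤ) ≡ a [ZMOD q] := by
    rw [← ZMod.intCast_eq_intCast_iff, Int.cast_natCast, eq_comm]
  by_cases h : (p : ℤ) ≡ a [ZMOD q]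
  · rw [if_pos h, if_pos (e.2 h)]
  · rw [if_neg h, if_neg (mt e.1 h)]
    simp

/-- **Siegel-Walfisz.**  Orthogonality (`DirichletCharacter.sum_char_inv_mul_char_eq`); the principal
character differs from `1` on prime powers of primes dividing `q` (at most `ω(q) log x`); prime
powers cost `2 √x log x` (`Chebyshev.psi_sub_theta_le`). -/
theorem siegel_walfisz (A B : ℕ) : ∃ C : ℝ, 0 < C ∧ ∀ x : ℝ, 3 ≤ x →
    ∀ q : ℕ, 1 ≤ q → (q : ℝ) ≤ Real.log x ^ B → ∀ a : ℤ, IsCoprime a (q : ℤ) →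
      |thetaAP x q a - x / Nat.totient q| ≤ C * x / Real.log x ^ A := by
  obtain ⟨C₁, p₁, h₁⟩ := psi_char A B
  obtain ⟨C₂, p₂, h₂⟩ := psi_one A
  obtain ⟨C₃, p₃, h₃⟩ := main_small A 1
  obtain ⟨C₄, p₄, h₄⟩ := main_small A B
  refine ⟨C₁ + C₂ + 2 * C₃ + C₄, by positivity, fun x hx q hq1 hq a ha => ?_⟩
  have : NeZero q := ⟨by omega⟩
  have hl := main_one_le_log hx
  have hu : IsUnit (a : ZMod q) := (ZMod.coe_int_isUnit_iff_isCoprime a q).2 ha.symm
  have hu' : IsUnit (a : ZMod q)⁻¹ := IsUnit.of_mul_eq_one _ (ZMod.inv_mul_of_unit _ hu)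
  set E := (C₁ + C₂ + 2 * C₃ + C₄) * x / Real.log x ^ A with hE
  have eE : E = C₁ * x / Real.log x ^ A + C₂ * x / Real.log x ^ A + 2 * (C₃ * x / Real.log x ^ A) +
      C₄ * x / Real.log x ^ A := by rw [hE]; ring
  have n1 : 0 ≤ C₁ * x / Real.log x ^ A := by positivity
  have n2 : 0 ≤ C₂ * x / Real.log x ^ A := by positivity
  have n4 : 0 ≤ C₄ * x / Real.log x ^ A := by positivity
  have k3 := h₃ x hx
  rw [pow_one] at k3
  have k4 : Real.log q ≤ C₄ * x / Real.log x ^ A := by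
    have h7 : 1 ≤ √x := Real.one_le_sqrt.2 (by linarith)
    have h8 := Real.log_le_self (Nat.cast_nonneg (α := ℝ) q)
    have h9 : Real.log x ^ B ≤ √x * Real.log x ^ B := le_mul_of_one_le_left (by positivity) h7
    linarith [h₄ x hx]
  have key : ∀ χ : DirichletCharacter ℂ q, ‖χ (a : ZMod q)⁻¹ *
      ∑ p ∈ (Icc 1 ⌊x⌋₊).filter Nat.Prime, χ p * (Real.log p : ℂ) -
        (if χ = 1 then (x : ℂ) else 0)‖ ≤ E := by
    intro χ
    split_ifs with hχ
    · subst hχ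
      rw [MulChar.one_apply hu', one_mul]
      have a1 := main_prime_sum (x := x) (by linarith) (fun _ => 1) (fun _ => by simp)
      have a2 := main_principal ⌊x⌋₊ q
      have a3 : ‖∑ n ∈ Icc 1 ⌊x⌋₊, (1 : ℂ) * (vonMangoldt n : ℂ) - x‖ ≤
          C₂ * x / Real.log x ^ A := by
        have := h₂ x hx
        rw [← Real.norm_eq_abs, ← Complex.norm_real] at this
        simpa using this
      have a4 := norm_sub_le_norm_sub_add_norm_sub
        (∑ p ∈ (Icc 1 ⌊x⌋₊).filter Nat.Prime, (1 : DirichletCharacter ℂ q) p * (Real.log p : ℂ))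
        (∑ p ∈ (Icc 1 ⌊x⌋₊).filter Nat.Prime, (1 : ℂ) * (Real.log p : ℂ)) (x : ℂ)
      have a5 := norm_sub_le_norm_sub_add_norm_sub
        (∑ p ∈ (Icc 1 ⌊x⌋₊).filter Nat.Prime, (1 : ℂ) * (Real.log p : ℂ))
        (∑ n ∈ Icc 1 ⌊x⌋₊, (1 : ℂ) * (vonMangoldt n : ℂ)) (x : ℂ)
      rw [norm_sub_rev] at a1 a2
      linarith
    · rw [sub_zero, norm_mul]
      have a1 := main_prime_sum (x := x) (by linarith) (fun n => χ n) fun n => χ.norm_le_one n
      have a2 := h₁ x hx q hq χ hχ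
      have a3 := norm_le_norm_add_norm_sub
        (∑ n ∈ Icc 1 ⌊x⌋₊, χ n * (vonMangoldt n : ℂ))
        (∑ p ∈ (Icc 1 ⌊x⌋₊).filter Nat.Prime, χ p * (Real.log p : ℂ))
      refine (mul_le_of_le_one_left (norm_nonneg _) (χ.norm_le_one _)).trans ?_
      linarith
  have hφ : (0 : ℝ) < Nat.totient q := by exact_mod_cast Nat.totient_pos.2 (by omega)
  have hcard : Fintype.card (DirichletCharacter ℂ q) = Nat.totient q := by
    rw [← Nat.card_eq_fintype_card, card_eq_totient_of_hasEnoughRootsOfUnity]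
  have tot := (norm_sum_le _ _).trans (sum_le_sum fun χ (_ : χ ∈ univ) => key χ)
  rw [sum_sub_distrib, main_orth x q hu, sum_ite_eq', if_pos (mem_univ _), sum_const, card_univ,
    hcard, nsmul_eq_mul] at tot
  have e : ((Nat.totient q : ℂ) * (thetaAP x q a : ℂ) - x) =
      ((Nat.totient q * (thetaAP x q a - x / Nat.totient q) : ℝ) : ℂ) := by
    rw [mul_sub, mul_div_cancel₀ _ hφ.ne']
    push_cast
    rfl
  rw [e, Complex.norm_real, Real.norm_eq_abs, abs_mul, abs_of_pos hφ] at tot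
  exact le_of_mul_le_mul_left tot hφ

end Crest.Agent.SW
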