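import Mathlib

/-!
# SW / SiegelA: reality and positivity of `L(x,χ)` for real characters, the four-fold product
-/

set_option autoImplicit false

namespace Crest.Agent.SW

open Finset Complex DirichletCharacter ArithmeticFunction
open scoped ComplexOrder ComplexConjugate Topology

theorem sgA_conj {q : ℕ} {χ : DirichletCharacter ℂ q} (h2 : χ ^ 2 = 1) (a : ZMod q) :
    conj (χ a) = χ a := by
  rcases MulChar.isQuadratic_iff_sq_eq_one.mpr h2 a with h | h | h <;> simp [h]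

theorem sgA_LFunction_conj {q : ℕ} [NeZero q] {χ : DirichletCharacter ℂ q} (h1 : χ ≠ 1)
    (h2 : χ ^ 2 = 1) (s : ℂ) : conj (LFunction χ (conj s)) = LFunction χ s := by
  have hd := differentiable_LFunction h1
  have hd' : Differentiable ℂ (conj ∘ LFunction χ ∘ conj) := fun z => by
    simpa using (hd (conj z)).conj_conj
  have h := AnalyticOnNhd.eq_of_eventuallyEq (z₀ := 2)
    (hd'.differentiableOn.analyticOnNhd isOpen_univ) (hd.differentiableOn.analyticOnNhd isOpen_univ)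
    (by
      have : ∀ᶠ z : ℂ in 𝓝 2, 1 < z.re :=
        (continuous_re.tendsto 2).eventually (lt_mem_nhds (by norm_num))
      filter_upwards [this] with z hz
      simp only [Function.comp_apply]
      rw [LFunction_eq_LSeries χ hz, LFunction_eq_LSeries χ (by simpa using hz), LSeries, LSeries,
        Complex.conj_tsum]
      refine tsum_congr fun n => ?_
      rcases eq_or_ne n 0 with rfl | hn
      · simp
      · rw [LSeries.term_of_ne_zero hn, LSeries.term_of_ne_zero hn, map_div₀, sgA_conj h2,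
          ← Complex.conj_cpow _ _ (by rw [natCast_arg]; exact Real.pi_ne_zero.symm), conj_natCast])
  exact congrFun h s

theorem sgA_im_eq_zero {q : ℕ} [NeZero q] {χ : DirichletCharacter ℂ q} (h1 : χ ≠ 1)
    (h2 : χ ^ 2 = 1) (x : ℝ) : (LFunction χ x).im = 0 := by
  have h := sgA_LFunction_conj h1 h2 x
  rwa [conj_ofReal, conj_eq_iff_im] at h

/-- a character as an arithmetic function -/
noncomputable def sgA_X {q : ℕ} (χ : DirichletCharacter ℂ q) : ArithmeticFunction ℂ :=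
  toArithmeticFunction (χ ·)

theorem sgA_X_apply {q : ℕ} (χ : DirichletCharacter ℂ q) {n : ℕ} (hn : n ≠ 0) :
    sgA_X χ n = χ n := (χ.apply_eq_toArithmeticFunction_apply hn).symm

theorem sgA_X_hasSum {q : ℕ} [NeZero q] (χ : DirichletCharacter ℂ q) {s : ℂ} (hs : 1 < s.re) :
    LSeriesHasSum (sgA_X χ) s (LFunction χ s) := by
  rw [LFunction_eq_LSeries χ hs]
  exact (LSeriesHasSum_congr s _ fun hn => sgA_X_apply χ hn).2
    (LSeriesSummable_of_one_lt_re χ hs).LSeriesHasSum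

theorem sgA_zeta_hasSum {s : ℂ} (hs : 1 < s.re) :
    LSeriesHasSum (ArithmeticFunction.zeta : ArithmeticFunction ℂ) s (riemannZeta s) :=
  LSeriesHasSum_zeta hs

theorem sgA_re_pos {q : ℕ} [NeZero q] {χ : DirichletCharacter ℂ q} (h1 : χ ≠ 1)
    (h2 : χ ^ 2 = 1) {x : ℝ} (hx : 1 ≤ x) : 0 < (LFunction χ x).re := by
  have hpos : ∀ y : ℝ, 1 < y → 0 < (LFunction χ y).re := fun y hy => by
    have hy' : 1 < (y : ℂ).re := by simpa using hy
    have h3 : LSeries χ.zetaMul y = riemannZeta y * LFunction χ y :=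
      (LSeriesHasSum_mul (sgA_zeta_hasSum hy') (sgA_X_hasSum χ hy')).LSeries_eq
    have h4 : 0 < LSeries χ.zetaMul y :=
      LSeries.positive (zetaMul_nonneg h2) (by rw [χ.isMultiplicative_zetaMul.map_one]; exact one_pos)
        ((LSeries.abscissaOfAbsConv_le_of_forall_lt_LSeriesSummable (x := 1) fun z hz =>
          LSeriesSummable_zetaMul χ (by simpa using hz)).trans_lt (by exact_mod_cast hy))
    rw [h3] at h4
    have h5 := (Complex.pos_iff.1 h4).1
    rw [mul_re, riemannZeta_im_eq_zero_of_one_lt hy, zero_mul, sub_zero] at h5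
    exact (mul_pos_iff_of_pos_left (riemannZeta_re_pos_of_one_lt hy)).1 h5
  rcases hx.lt_or_eq with h | rfl
  · exact hpos x h
  · have hc : Continuous fun y : ℝ => (LFunction χ y).re :=
      continuous_re.comp ((differentiable_LFunction h1).continuous.comp continuous_ofReal)
    have h0 : 0 ≤ (LFunction χ (1 : ℝ)).re :=
      ge_of_tendsto (hc.continuousWithinAt (s := Set.Ioi 1) (x := 1))
        (eventually_nhdsWithin_of_forall fun y hy => (hpos y hy).le)
    refine h0.lt_of_ne fun h => LFunction_apply_one_ne_zero h1 ?_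
    exact Complex.ext h.symm (sgA_im_eq_zero h1 h2 1)

theorem sgA_X_mul {q : ℕ} (χ₁ χ₂ : DirichletCharacter ℂ q) (n : ℕ) :
    (sgA_X χ₂ * sgA_X (χ₁ * χ₂)) n = χ₂ n * χ₁.zetaMul n := by
  rw [zetaMul, mul_apply, mul_apply, Finset.mul_sum]
  refine Finset.sum_congr rfl fun d hd => ?_
  obtain ⟨h1, h2⟩ := Nat.ne_zero_of_mem_divisorsAntidiagonal hd
  rw [sgA_X_apply _ h1, sgA_X_apply _ h2, ← (Nat.mem_divisorsAntidiagonal.1 hd).1,
    ← χ₁.apply_eq_toArithmeticFunction_apply h2, MulChar.mul_apply, natCoe_apply, zeta_apply_ne h1]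
  push_cast
  rw [map_mul]
  ring

theorem sgA_pp_nonneg {q : ℕ} {χ₁ χ₂ : DirichletCharacter ℂ q} (h1 : χ₁ ^ 2 = 1) {p : ℕ}
    (hp : p.Prime) (k : ℕ) (h : 0 ≤ χ₂ p ∨ χ₁ p = -1 ∧ χ₂ p = -1) :
    0 ≤ (χ₁.zetaMul * (sgA_X χ₂ * sgA_X (χ₁ * χ₂))) (p ^ k) := by
  rw [mul_apply]
  refine Finset.sum_nonneg fun d hd => mul_nonneg (zetaMul_nonneg h1 _) ?_
  obtain ⟨j, -, hj⟩ := (Nat.dvd_prime_pow hp).1 (Nat.dvd_of_mem_divisors
    (Nat.snd_mem_divisors_of_mem_antidiagonal hd))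
  rw [sgA_X_mul, hj, Nat.cast_pow, map_pow]
  rcases h with h | ⟨hx, hy⟩
  · exact mul_nonneg (pow_nonneg h _) (zetaMul_nonneg h1 _)
  · rcases Nat.even_or_odd j with hj | hj
    · rw [hy, hj.neg_one_pow, one_mul]
      exact zetaMul_nonneg h1 _
    · have : χ₁.zetaMul (p ^ j) = 0 := by
        rw [zetaMul, coe_zeta_mul_apply, Nat.sum_divisors_prime_pow hp]
        rw [Finset.sum_congr rfl fun i _ => (χ₁.apply_eq_toArithmeticFunction_apply
          (pow_ne_zero i hp.ne_zero)).symm]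
        simp only [Nat.cast_pow, map_pow, hx, neg_one_geom_sum]
        rw [if_pos hj.add_one]
      rw [this, mul_zero]

theorem sgA_exists_coeff {q : ℕ} [NeZero q] {χ₁ χ₂ : DirichletCharacter ℂ q} (h1 : χ₁ ^ 2 = 1)
    (h2 : χ₂ ^ 2 = 1) : ∃ a : ℕ → ℂ, 0 ≤ a ∧ a 1 = 1 ∧
      ∀ s : ℂ, 1 < s.re → LSeriesSummable a s ∧ LSeries a s =
        riemannZeta s * (LFunction χ₁ s * LFunction χ₂ s * LFunction (χ₁ * χ₂) s) := by
  have hm : (χ₁.zetaMul * (sgA_X χ₂ * sgA_X (χ₁ * χ₂))).IsMultiplicative :=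
    χ₁.isMultiplicative_zetaMul.mul ((isMultiplicative_toArithmeticFunction _).mul
      (isMultiplicative_toArithmeticFunction _))
  have hsymm : χ₁.zetaMul * (sgA_X χ₂ * sgA_X (χ₁ * χ₂)) =
      χ₂.zetaMul * (sgA_X χ₁ * sgA_X (χ₂ * χ₁)) := by
    rw [mul_comm χ₂ χ₁]
    show _ * sgA_X χ₁ * _ = _ * sgA_X χ₂ * _
    ring
  refine ⟨fun n => (χ₁.zetaMul * (sgA_X χ₂ * sgA_X (χ₁ * χ₂))) n, fun n => ?_, hm.map_one, fun s hs => ?_⟩
  · rcases eq_or_ne n 0 with rfl | hn
    · simp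
    · simp only [Pi.zero_apply, hm.multiplicative_factorization _ hn]
      refine Finset.prod_nonneg fun p hp => ?_
      have hp' := Nat.prime_of_mem_primeFactors hp
      rcases MulChar.isQuadratic_iff_sq_eq_one.mpr h2 p with hy | hy | hy
      · exact sgA_pp_nonneg h1 hp' _ (Or.inl hy.ge)
      · exact sgA_pp_nonneg h1 hp' _ (Or.inl (hy ▸ zero_le_one))
      · rcases MulChar.isQuadratic_iff_sq_eq_one.mpr h1 p with hx | hx | hx
        · rw [hsymm]
          exact sgA_pp_nonneg h2 hp' _ (Or.inl hx.ge)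
        · rw [hsymm]
          exact sgA_pp_nonneg h2 hp' _ (Or.inl (hx ▸ zero_le_one))
        · exact sgA_pp_nonneg h1 hp' _ (Or.inr ⟨hx, hy⟩)
  · have h := LSeriesHasSum_mul (LSeriesHasSum_mul (sgA_zeta_hasSum hs) (sgA_X_hasSum χ₁ hs))
      (LSeriesHasSum_mul (sgA_X_hasSum χ₂ hs) (sgA_X_hasSum (χ₁ * χ₂) hs))
    refine ⟨h.LSeriesSummable, h.LSeries_eq.trans ?_⟩
    ring

end Crest.Agent.SW
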