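import Crest.Agent.Lib.SW.Estermann

/-!
# SW / SiegelB: the deduction of Siegel's theorem from Estermann's lemma
-/

set_option autoImplicit false

namespace Crest.Agent.SW

open Finset Complex DirichletCharacter
open scoped ComplexOrder

theorem sgb_two_pow (δ : ℝ) (hδ : 0 < δ) : ∃ D : ℝ, 0 < D ∧ ∀ N : ℕ, N ≠ 0 →
    (2 : ℝ) ^ N.primeFactors.card ≤ D * (N : ℝ) ^ δ := by
  obtain ⟨P, hP⟩ : ∃ P : ℕ, (2 : ℝ) ^ (1 / δ) ≤ P := exists_nat_ge _
  refine ⟨2 ^ P, by positivity, fun N hN => ?_⟩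
  have h1 : ∀ p ∈ N.primeFactors, (2 : ℝ) ≤ (if p < P then 2 else 1) * (p : ℝ) ^ δ := by
    intro p hp
    have hp1 : (1 : ℝ) ≤ p := by exact_mod_cast (Nat.prime_of_mem_primeFactors hp).one_le
    split_ifs with h
    · have := Real.one_le_rpow hp1 hδ.le
      linarith
    · have h2 : (2 : ℝ) ^ (1 / δ) ≤ p := hP.trans (by exact_mod_cast not_lt.1 h)
      have h3 := Real.rpow_le_rpow (by positivity) h2 hδ.le
      rw [← Real.rpow_mul (by norm_num), one_div_mul_cancel hδ.ne', Real.rpow_one] at h3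
      linarith
  have h2 : (2 : ℝ) ^ N.primeFactors.card ≤
      ∏ p ∈ N.primeFactors, ((if p < P then 2 else 1) * (p : ℝ) ^ δ) := by
    rw [← Finset.prod_const]
    exact Finset.prod_le_prod (fun _ _ => by norm_num) h1
  rw [Finset.prod_mul_distrib, Real.finsetProd_rpow _ _ (fun _ _ => by positivity)] at h2
  refine h2.trans (mul_le_mul ?_ ?_ (by positivity) (by positivity))
  · rw [← Finset.prod_filter, Finset.prod_const]
    refine pow_le_pow_right₀ (by norm_num) ?_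
    calc (N.primeFactors.filter (· < P)).card ≤ (Finset.range P).card :=
          Finset.card_le_card fun p hp => Finset.mem_range.2 (Finset.mem_filter.1 hp).2
      _ = P := Finset.card_range P
  · refine Real.rpow_le_rpow (by positivity) ?_ hδ.le
    rw [← Nat.cast_prod]
    exact_mod_cast Nat.le_of_dvd (Nat.pos_of_ne_zero hN) (Nat.prod_primeFactors_dvd N)

theorem sgb_lift {q N : ℕ} [NeZero q] [NeZero N] (h : q ∣ N) {χ : DirichletCharacter ℂ q}
    (h1 : χ ≠ 1) :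
    ‖LFunction (changeLevel h χ) 1‖ ≤ 2 ^ N.primeFactors.card * ‖LFunction χ 1‖ ∧
      ‖LFunction χ 1‖ ≤ 2 ^ N.primeFactors.card * ‖LFunction (changeLevel h χ) 1‖ := by
  have key : ∀ p ∈ N.primeFactors, ‖χ p * (p : ℂ) ^ (-(1 : ℂ))‖ ≤ 1 / 2 := by
    intro p hp
    have hp2 : (2 : ℝ) ≤ p := by exact_mod_cast (Nat.prime_of_mem_primeFactors hp).two_le
    rw [norm_mul, cpow_neg_one, norm_inv, Complex.norm_natCast]
    have h2 : (p : ℝ)⁻¹ ≤ 1 / 2 := by
      rw [inv_eq_one_div]; exact one_div_le_one_div_of_le (by norm_num) hp2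
    calc _ ≤ 1 * (1 / 2 : ℝ) := mul_le_mul (χ.norm_le_one _) h2 (by positivity) (by norm_num)
      _ = _ := one_mul _
  have up : ‖∏ p ∈ N.primeFactors, (1 - χ p * (p : ℂ) ^ (-(1 : ℂ)))‖ ≤
      2 ^ N.primeFactors.card := by
    rw [norm_prod, ← Finset.prod_const]
    refine Finset.prod_le_prod (fun _ _ => norm_nonneg _) fun p hp => ?_
    have := norm_sub_le (1 : ℂ) (χ p * (p : ℂ) ^ (-(1 : ℂ)))
    rw [norm_one] at this
    linarith [key p hp]
  have lo : 1 ≤ 2 ^ N.primeFactors.card *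
      ‖∏ p ∈ N.primeFactors, (1 - χ p * (p : ℂ) ^ (-(1 : ℂ)))‖ := by
    rw [norm_prod, ← Finset.prod_const, ← Finset.prod_mul_distrib]
    refine le_trans (by simp) (Finset.prod_le_prod (f := fun _ => (1 : ℝ))
      (fun _ _ => zero_le_one) fun p hp => ?_)
    have := norm_sub_norm_le (1 : ℂ) (χ p * (p : ℂ) ^ (-(1 : ℂ)))
    rw [norm_one] at this
    linarith [key p hp]
  rw [LFunction_changeLevel h χ (Or.inl h1), norm_mul]
  have h0 := norm_nonneg (LFunction χ 1)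
  constructor <;> nlinarith

theorem sgb_disc : ∃ A : ℝ, 2 ≤ A ∧ ∀ (q : ℕ) [NeZero q] (χ : DirichletCharacter ℂ q), χ ≠ 1 →
    ∀ s : ℂ, ‖s - 2‖ ≤ 3 / 2 → ‖LFunction χ s‖ ≤ A * q := by
  obtain ⟨C, hC, h⟩ := LFunction_bound (1 / 2) (by norm_num) le_rfl
  refine ⟨4 * C + 2, by linarith, fun q _ χ h1 s hs => ?_⟩
  have hq : (1 : ℝ) ≤ q := by exact_mod_cast NeZero.one_le
  have hre := abs_le.1 ((abs_re_le_norm (s - 2)).trans hs)
  have him := (abs_im_le_norm (s - 2)).trans hs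
  simp only [sub_re, re_ofNat, sub_im, im_ofNat, sub_zero] at hre him
  have h2 := h q χ h1 s (by linarith [hre.1]) (by linarith [hre.2])
  have h0 := abs_nonneg s.im
  have h3 : ((q : ℝ) * (|s.im| + 2)) ^ (1 / 2 : ℝ) ≤ (q : ℝ) * (|s.im| + 2) :=
    Real.rpow_le_self_of_one_le (by nlinarith) (by norm_num)
  have h4 : (q : ℝ) * (|s.im| + 2) ≤ 4 * q := by nlinarith
  nlinarith [mul_le_mul_of_nonneg_left (h3.trans h4) hC.le]

theorem sgb_zeta : ∃ η : ℝ, 0 < η ∧ η ≤ 1 / 8 ∧ ∀ β : ℝ, 1 - η ≤ β → β < 1 →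
    (riemannZeta β).re ≤ 0 := by
  obtain ⟨C, hC, h⟩ := Z0_bound (1 / 2) (by norm_num) le_rfl
  refine ⟨min (1 / 8) (1 / (2 * C)), by positivity, min_le_left _ _, fun β h1 h2 => ?_⟩
  have h3 : 1 - β ≤ 1 / 8 := by linarith [min_le_left (1 / 8 : ℝ) (1 / (2 * C))]
  have h4 : 1 - β ≤ 1 / (2 * C) := by linarith [min_le_right (1 / 8 : ℝ) (1 / (2 * C))]
  have h5 := h β (by simp only [ofReal_re]; linarith) (by simp only [ofReal_re]; linarith)
  simp only [ofReal_im, abs_zero, zero_add] at h5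
  have h6 : (2 : ℝ) ^ (1 / 2 : ℝ) ≤ 2 := Real.rpow_le_self_of_one_le (by norm_num) (by norm_num)
  have h7 : (Z0 β).re ≤ 2 * C := by
    have := (re_le_norm (Z0 β)).trans h5
    nlinarith
  have h8 : (β : ℂ) ≠ 1 := by exact_mod_cast h2.ne
  rw [zeta_eq_Z0 (by simp only [ofReal_re]; linarith) h8, add_re]
  have h9 : (1 / ((β : ℂ) - 1)).re = -(1 / (1 - β)) := by
    rw [show (1 / ((β : ℂ) - 1)) = ((-(1 / (1 - β)) : ℝ) : ℂ) by
      push_cast; rw [← neg_sub (β : ℂ) 1, one_div_neg_eq_neg_one_div, neg_neg], ofReal_re]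
  have h10 : 2 * C ≤ 1 / (1 - β) := by
    rw [le_div_iff₀ (by linarith)]
    rw [le_div_iff₀ (by positivity)] at h4
    linarith
  linarith

theorem sgb_zetaMul {q : ℕ} [NeZero q] (χ : DirichletCharacter ℂ q) {s : ℂ} (hs : 1 < s.re) :
    LSeries χ.zetaMul s = riemannZeta s * LFunction χ s := by
  have hc : ∀ {n : ℕ}, n ≠ 0 → χ n = toArithmeticFunction (fun n : ℕ => χ n) n :=
    fun hn => χ.apply_eq_toArithmeticFunction_apply hn
  rw [zetaMul, ← ArithmeticFunction.coe_mul, LSeries_convolution', χ.LFunction_eq_LSeries hs]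
  · congr 1
    · simp_rw [← ArithmeticFunction.LSeries_zeta_eq_riemannZeta hs,
        ← ArithmeticFunction.natCoe_apply]
    · exact (LSeries_congr hc s).symm
  · exact ArithmeticFunction.LSeriesSummable_zeta_iff.mpr hs
  · exact (LSeriesSummable_congr s hc).mp <| ZMod.LSeriesSummable_of_one_lt_re χ hs

theorem sgb_rpow {U x y : ℝ} (hU : 2 ≤ U) (h : x ≤ y) : U ^ (-y) ≤ U ^ (-x) :=
  Real.rpow_le_rpow_of_exponent_le (by linarith) (by linarith)

theorem siegel_of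
    (him : ∀ (q : ℕ) [NeZero q] (χ : DirichletCharacter ℂ q), χ ≠ 1 → χ ^ 2 = 1 →
      ∀ x : ℝ, (LFunction χ x).im = 0)
    (hpos : ∀ (q : ℕ) [NeZero q] (χ : DirichletCharacter ℂ q), χ ≠ 1 → χ ^ 2 = 1 →
      0 < (LFunction χ 1).re)
    (hco : ∀ (q : ℕ) [NeZero q] (χ₁ χ₂ : DirichletCharacter ℂ q), χ₁ ^ 2 = 1 → χ₂ ^ 2 = 1 →
      ∃ a : ℕ → ℂ, 0 ≤ a ∧ a 1 = 1 ∧ ∀ s : ℂ, 1 < s.re → LSeriesSummable a s ∧ LSeries a s =
        riemannZeta s * (LFunction χ₁ s * LFunction χ₂ s * LFunction (χ₁ * χ₂) s))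
    (ε : ℝ) (hε : 0 < ε) : ∃ c : ℝ, 0 < c ∧
    ∀ (q : ℕ) [NeZero q] (χ : DirichletCharacter ℂ q), χ ≠ 1 → χ ^ 2 = 1 →
      c * (q : ℝ) ^ (-ε) ≤ ‖LFunction χ 1‖ := by
  obtain ⟨c₀, C₀, hc₀, hC₀, est⟩ := estermann
  obtain ⟨A, hA, disc⟩ := sgb_disc
  obtain ⟨η₀, hη₀, hη₁, hζ⟩ := sgb_zeta
  obtain ⟨δ, hδ, hδ1, hδε⟩ : ∃ δ : ℝ, 0 < δ ∧ δ ≤ 1 / 2 ∧ 6 * δ ≤ ε :=
    ⟨min (1 / 2) (ε / 6), by positivity, min_le_left _ _,
      by linarith [min_le_right (1 / 2 : ℝ) (ε / 6)]⟩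
  obtain ⟨η, hη, hη0, hηδ⟩ : ∃ η : ℝ, 0 < η ∧ η ≤ η₀ ∧ C₀ * η ≤ δ :=
    ⟨min η₀ (δ / C₀), by positivity, min_le_left _ _, by
      have := min_le_right η₀ (δ / C₀)
      rw [le_div_iff₀ hC₀] at this
      linarith⟩
  have hA0 : 0 < A := by linarith
  by_cases hB : ∃ (q₁ : ℕ) (_ : NeZero q₁) (χ₁ : DirichletCharacter ℂ q₁) (β : ℝ),
      χ₁ ≠ 1 ∧ χ₁ ^ 2 = 1 ∧ 1 - η ≤ β ∧ β < 1 ∧ LFunction χ₁ β = 0
  swap
  · -- no exceptional zero
    refine ⟨c₀ * η * A ^ (-ε), by positivity, fun q _ χ h1 h2 => ?_⟩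
    have hq : (1 : ℝ) ≤ q := by exact_mod_cast NeZero.one_le
    have hnn : 0 ≤ (LFunction χ ((1 - η : ℝ) : ℂ)).re := by
      by_contra hneg
      have hcont : Continuous fun x : ℝ => (LFunction χ x).re :=
        continuous_re.comp ((differentiable_LFunction h1).continuous.comp continuous_ofReal)
      have hp := hpos q χ h1 h2
      obtain ⟨x, hx, hx0⟩ := intermediate_value_Icc (show 1 - η ≤ 1 by linarith) hcont.continuousOn
        (show (0 : ℝ) ∈ Set.Icc _ _ from ⟨(not_le.1 hneg).le, by simpa using hp.le⟩)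
      have hx1 : x ≠ 1 := by
        rintro rfl
        simp only [ofReal_one] at hx0
        exact hp.ne' hx0
      exact hB ⟨q, inferInstance, χ, x, h1, h2, hx.1, lt_of_le_of_ne hx.2 hx1,
        Complex.ext hx0 (him q χ h1 h2 x)⟩
    have hU : 2 ≤ A * q := by nlinarith
    have h3 := est χ.zetaMul (LFunction χ) (A * q) (1 - η) (zetaMul_nonneg h2)
      χ.isMultiplicative_zetaMul.map_one (fun s hs => χ.LSeriesSummable_zetaMul hs)
      (differentiable_LFunction h1).differentiableOn (fun s hs => sgb_zetaMul χ hs) hU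
      (disc q χ h1) (by linarith) (by linarith) (by
        rw [mul_re, him q χ h1 h2, mul_zero, sub_zero]
        exact mul_nonpos_of_nonpos_of_nonneg (hζ _ (by linarith) (by linarith)) hnn)
    rw [sub_sub_cancel] at h3
    refine le_trans ?_ (h3.trans (re_le_norm _))
    rw [mul_assoc (c₀ * η), ← Real.mul_rpow hA0.le (by positivity)]
    exact mul_le_mul_of_nonneg_left (sgb_rpow hU (by linarith)) (by positivity)
  obtain ⟨q₁, _, χ₁, β, h11, h12, hβ, hβ1, hz⟩ := hB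
  obtain ⟨D, hD, two⟩ := sgb_two_pow δ hδ
  obtain ⟨C, hC, bd⟩ := LFunction_bound δ hδ hδ1
  have hL1 : 0 < ‖LFunction χ₁ 1‖ := (hpos q₁ χ₁ h11 h12).trans_le (re_le_norm _)
  have hq₁ : (1 : ℝ) ≤ q₁ := by exact_mod_cast NeZero.one_le
  have hb : 0 < 1 - β := by linarith
  set c₁ : ℝ := c₀ * (1 - β) * A ^ (-(3 * δ)) / ((2 * C) ^ 2 * D) with hc₁
  set c₂ : ℝ := ‖LFunction χ₁ 1‖ / D ^ 2 with hc₂
  have hc₁0 : 0 < c₁ := by positivity
  have hc₂0 : 0 < c₂ := by positivity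
  refine ⟨min c₁ c₂ * (q₁ : ℝ) ^ (-ε), by positivity, fun q _ χ h1 h2 => ?_⟩
  have hq : (1 : ℝ) ≤ q := by exact_mod_cast NeZero.one_le
  have hN0 : q₁ * q ≠ 0 := mul_ne_zero (NeZero.ne _) (NeZero.ne _)
  have : NeZero (q₁ * q) := ⟨hN0⟩
  set N := q₁ * q with hN
  have hN1 : (1 : ℝ) ≤ N := by exact_mod_cast NeZero.one_le
  have hNpos : (0 : ℝ) < N := by linarith
  have d1 : q₁ ∣ N := Dvd.intro _ rfl
  have d2 : q ∣ N := Dvd.intro_left _ rfl
  set x : ℝ := (N : ℝ) ^ δ with hx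
  have hx1 : 1 ≤ x := Real.one_le_rpow hN1 hδ.le
  have hx0 : 0 < x := by linarith
  have hfin : (q₁ : ℝ) ^ (-ε) * (q : ℝ) ^ (-ε) * x ^ 6 ≤ 1 := by
    rw [← Real.mul_rpow (by positivity) (by positivity), ← Nat.cast_mul, ← hN, hx,
      ← Real.rpow_natCast, ← Real.rpow_mul hNpos.le, ← Real.rpow_add hNpos]
    exact Real.rpow_le_one_of_one_le_of_nonpos hN1 (by push_cast; linarith)
  suffices hs : min c₁ c₂ ≤ x ^ 6 * ‖LFunction χ 1‖ by
    have h0 : 0 ≤ (q₁ : ℝ) ^ (-ε) * (q : ℝ) ^ (-ε) := by positivity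
    calc _ = (q₁ : ℝ) ^ (-ε) * (q : ℝ) ^ (-ε) * min c₁ c₂ := by ring
      _ ≤ (q₁ : ℝ) ^ (-ε) * (q : ℝ) ^ (-ε) * (x ^ 6 * ‖LFunction χ 1‖) :=
          mul_le_mul_of_nonneg_left hs h0
      _ = ((q₁ : ℝ) ^ (-ε) * (q : ℝ) ^ (-ε) * x ^ 6) * ‖LFunction χ 1‖ := by ring
      _ ≤ 1 * ‖LFunction χ 1‖ := mul_le_mul_of_nonneg_right hfin (norm_nonneg _)
      _ = _ := one_mul _
  have hW := two N hN0
  rw [← hx] at hW
  have hL0 := norm_nonneg (LFunction χ 1)
  set ψ₁ := changeLevel d1 χ₁ with hψ₁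
  set ψ := changeLevel d2 χ with hψ
  have p11 : ψ₁ ≠ 1 := h11 ∘ (changeLevel_eq_one_iff d1).mp
  have p1 : ψ ≠ 1 := h1 ∘ (changeLevel_eq_one_iff d2).mp
  have p12 : ψ₁ ^ 2 = 1 := by rw [hψ₁, ← map_pow, h12, map_one]
  have p2 : ψ ^ 2 = 1 := by rw [hψ, ← map_pow, h2, map_one]
  have up : ‖LFunction ψ 1‖ ≤ D * x * ‖LFunction χ 1‖ :=
    (sgb_lift d2 h1).1.trans (mul_le_mul_of_nonneg_right hW hL0)
  by_cases hp : ψ₁ * ψ = 1
  · have he : ψ₁ = ψ := by
      have : ψ₁ * ψ = ψ * ψ := by rw [hp, ← pow_two, p2]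
      exact mul_right_cancel this
    have lo : ‖LFunction χ₁ 1‖ ≤ D * x * ‖LFunction ψ 1‖ := by
      rw [← he]
      exact (sgb_lift d1 h11).2.trans (mul_le_mul_of_nonneg_right hW (norm_nonneg _))
    refine (min_le_right _ _).trans ?_
    rw [hc₂, div_le_iff₀ (by positivity)]
    have h3 : x ^ 2 ≤ x ^ 6 := pow_le_pow_right₀ hx1 (by norm_num)
    calc _ ≤ D * x * (D * x * ‖LFunction χ 1‖) :=
          lo.trans (mul_le_mul_of_nonneg_left up (by positivity))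
      _ = x ^ 2 * (‖LFunction χ 1‖ * D ^ 2) := by ring
      _ ≤ x ^ 6 * (‖LFunction χ 1‖ * D ^ 2) := mul_le_mul_of_nonneg_right h3 (by positivity)
      _ = _ := by ring
  · obtain ⟨a, ha0, ha1, ha⟩ := hco N ψ₁ ψ p12 p2
    have hAN : 2 ≤ A * N := by nlinarith
    have hU : 2 ≤ (A * N) ^ 3 := hAN.trans (le_self_pow₀ (by linarith) (by norm_num))
    have hz' : LFunction ψ₁ β = 0 := by
      rw [hψ₁, LFunction_changeLevel d1 χ₁ (Or.inl h11), hz, zero_mul]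
    have h3 := est a (fun s => LFunction ψ₁ s * LFunction ψ s * LFunction (ψ₁ * ψ) s)
      ((A * N) ^ 3) β ha0 ha1 (fun s hs => (ha s hs).1)
      (((differentiable_LFunction p11).mul (differentiable_LFunction p1)).mul
        (differentiable_LFunction hp)).differentiableOn (fun s hs => (ha s hs).2) hU
      (fun s hs => by
        rw [norm_mul, norm_mul, pow_three']
        exact mul_le_mul (mul_le_mul (disc N _ p11 s hs) (disc N _ p1 s hs) (norm_nonneg _)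
          (by positivity)) (disc N _ hp s hs) (norm_nonneg _) (by positivity))
      (by linarith) hβ1 (by simp [hz'])
    have one : ∀ φ : DirichletCharacter ℂ N, φ ≠ 1 → ‖LFunction φ 1‖ ≤ 2 * C * x := by
      intro φ hφ
      have h4 := bd N φ hφ 1 (by simp only [one_re]; linarith) (by simp only [one_re]; norm_num)
      simp only [one_im, abs_zero, zero_add] at h4
      rw [Real.mul_rpow hNpos.le (by norm_num), ← hx] at h4
      have h5 : (2 : ℝ) ^ δ ≤ 2 := Real.rpow_le_self_of_one_le (by norm_num) (by linarith)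
      calc _ ≤ C * (x * 2 ^ δ) := h4
        _ ≤ C * (x * 2) := by gcongr
        _ = _ := by ring
    have h4 : c₀ * (1 - β) * ((A * N) ^ 3) ^ (-δ) ≤
        2 * C * x * (D * x * ‖LFunction χ 1‖) * (2 * C * x) := by
      refine le_trans (mul_le_mul_of_nonneg_left (sgb_rpow hU (x := C₀ * (1 - β)) ?_)
        (by positivity)) (h3.trans ((re_le_norm _).trans ?_))
      · nlinarith
      · rw [norm_mul, norm_mul]
        exact mul_le_mul (mul_le_mul (one _ p11) up (norm_nonneg _) (by positivity)) (one _ hp)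
          (norm_nonneg _) (by positivity)
    have h5 : ((A * N) ^ 3) ^ (-δ) * x ^ 3 = A ^ (-(3 * δ)) := by
      rw [← Real.rpow_natCast (A * N), ← Real.rpow_mul (by positivity),
        Real.mul_rpow hA0.le hNpos.le, hx, ← Real.rpow_natCast, ← Real.rpow_mul hNpos.le, mul_assoc,
        ← Real.rpow_add hNpos]
      push_cast
      rw [show 3 * -δ + δ * 3 = 0 by ring, Real.rpow_zero, mul_one, mul_neg]
    refine (min_le_left _ _).trans ?_
    rw [hc₁, div_le_iff₀ (by positivity), ← h5]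
    calc _ = c₀ * (1 - β) * ((A * N) ^ 3) ^ (-δ) * x ^ 3 := by ring
      _ ≤ 2 * C * x * (D * x * ‖LFunction χ 1‖) * (2 * C * x) * x ^ 3 :=
          mul_le_mul_of_nonneg_right h4 (by positivity)
      _ = _ := by ring

end Crest.Agent.SW
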