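import Crest.Agent.Lib.SW.Estermann
import Crest.Agent.Lib.SW.SiegelA
import Crest.Agent.Lib.SW.SiegelB

/-!
# SW / Siegel: Siegel's theorem `L(1,χ) ≫_ε q^{-ε}` for real characters
-/

set_option autoImplicit false

namespace Crest.Agent.SW

open Finset Complex DirichletCharacter
open scoped ComplexOrder

/-- real characters have real `L`-values at real points (identity theorem for
`s ↦ conj (L (conj s))`, both sides entire, equal for `re s > 1`) -/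
theorem LFunction_im_eq_zero {q : ℕ} [NeZero q] {χ : DirichletCharacter ℂ q} (h1 : χ ≠ 1)
    (h2 : χ ^ 2 = 1) (x : ℝ) : (LFunction χ x).im = 0 :=
  sgA_im_eq_zero h1 h2 x

/-- positivity for `x ≥ 1` (nonvanishing, intermediate values, `ζ(2) L(2) > 0`) -/
theorem LFunction_re_pos {q : ℕ} [NeZero q] {χ : DirichletCharacter ℂ q} (h1 : χ ≠ 1)
    (h2 : χ ^ 2 = 1) {x : ℝ} (hx : 1 ≤ x) : 0 < (LFunction χ x).re :=
  sgA_re_pos h1 h2 hx

/-- the coefficients of `ζ(s) L(s,χ₁) L(s,χ₂) L(s,χ₁χ₂)` are nonnegative (multiplicative, check on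
prime powers: with `x = χ₁ p`, `y = χ₂ p ∈ {0,1,-1}` the local factor is a product of two series
with nonnegative coefficients, or write it as `(1 * χ₁) * (χ₂ · (1 * χ₁))`) -/
theorem exists_coeff {q : ℕ} [NeZero q] {χ₁ χ₂ : DirichletCharacter ℂ q} (h1 : χ₁ ^ 2 = 1)
    (h2 : χ₂ ^ 2 = 1) : ∃ a : ℕ → ℂ, 0 ≤ a ∧ a 1 = 1 ∧
      ∀ s : ℂ, 1 < s.re → LSeriesSummable a s ∧ LSeries a s =
        riemannZeta s * (LFunction χ₁ s * LFunction χ₂ s * LFunction (χ₁ * χ₂) s) :=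
  sgA_exists_coeff h1 h2

/-- Siegel.  Hint: fix a small `η` (with `re ζ(β) < 0` on `[1-η,1)` from `zeta_eq_Z0`, `Z0_bound`).
Case A: no real nonprincipal character of any modulus has a zero in `[1-η,1)`; apply `estermann` to
`a = χ.zetaMul`, `g = LFunction χ`, `β = 1-η`, `U = C (6q)^{1/2}`.
Case B: `χ₁ mod q₁` has a zero `β`.  Lift `χ₁, χ` to level `q₁ q` (`changeLevel`,
`LFunction_changeLevel`).  If the product of the lifts is nonprincipal apply `estermann` with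
`exists_coeff` and bound `L(1,χ₁')`, `L(1,χ₁'χ')` by `LFunction_bound`, and
`‖L(1,χ')‖ ≤ 2^{ω(q₁)} ‖L(1,χ)‖`.  Otherwise the lifts are equal and
`2^{ω(q₁)} ‖L(1,χ)‖ ≥ ‖L(1,χ₁)‖ ∏_{p ∣ q₁ q} (1-1/p) ≥ c (q₁ q)^{-ε}`. -/
theorem siegel (ε : ℝ) (hε : 0 < ε) : ∃ c : ℝ, 0 < c ∧
    ∀ (q : ℕ) [NeZero q] (χ : DirichletCharacter ℂ q), χ ≠ 1 → χ ^ 2 = 1 →
      c * (q : ℝ) ^ (-ε) ≤ ‖LFunction χ 1‖ :=
  siegel_of (fun _ _ _ h1 h2 x => LFunction_im_eq_zero h1 h2 x)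
    (fun _ _ _ h1 h2 => by simpa using LFunction_re_pos h1 h2 (x := 1) le_rfl)
    (fun _ _ _ _ h1 h2 => exists_coeff h1 h2) ε hε

end Crest.Agent.SW
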